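import Vale.Agent.P284.H10.S4i
import Vale.Agent.P284.H35.S4b
import Vale.Agent.P284.H221.C6
import Vale.Agent.P284.H213.Grp.Lat
import Vale.Agent.P284.H913.V18
import Vale.Agent.P284.H619.NS0A
import Vale.Agent.P284.H494.Loc
import Vale.Agent.P284.H988.N.Defs

/-!
# P284 (helper988), T3⁺: the regular values of `F`, local connectedness off the thin sets
-/

open scoped Manifold ContDiff Topology InnerProductSpace ComplexConjugate
open Filter Set Metric

noncomputable section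

namespace Vale.Agent.P284.H988.T

open Vale.Agent.P272.K Vale.Agent.P284.H894 Vale.Agent.P284.H894.G Vale.Agent.P284.H894.V
  Vale.Agent.P284.H894.W Vale.Agent.P284.H573 Vale.Agent.P284.H213.Grp Vale.Agent.P284.H395
  Vale.Agent.P284.H378 Vale.Agent.P284.H478.G Vale.Agent.P284.H988.N Vale.Agent.P284.H10
  Vale.Agent.P284.H619

/-- the kernel of the period character -/
def kerC {Γ : Type} [Group Γ] {q : ℕ} {c : Γ → Cm q} (h : LatChar Γ q c) : Subgroup Γ where
  carrier := {g | c g = 0}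
  mul_mem' := by
    intro a b ha hb
    show c (a * b) = 0
    rw [h.add, show c a = 0 from ha, show c b = 0 from hb, add_zero]
  one_mem' := h.map_one
  inv_mem' := by
    intro a ha
    show c a⁻¹ = 0
    rw [h.map_inv, show c a = 0 from ha, neg_zero]

section
variable {n q : ℕ} {X : Type} [TopologicalSpace X] [ChartedSpace (Cm n) X]
  {E : Type} [TopologicalSpace E] {Γ : Type} [Group Γ] [MulAction Γ E] {p : E → X}
  {w : Chart n X → Cm n → Matrix (Fin n) (Fin n) ℂ} {B : ℝ} {F : E → Cm q} {c : Γ → Cm q}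
  {K : Subgroup Γ}

/-- The Albanese data of `KPkg`. -/
theorem alb_of (hK : KPkg Γ q c K) (hF : ∃ B, HolB p w F B)
    (hFe : ∀ g y, F (g • y) = F y + c g) : Alb p w (⊤ : Subgroup Γ) (kerC hK.lat) F c where
  fi := inferInstance
  hol := hF
  equiv g _ y := hFe g y
  mem g := ⟨fun h => ⟨Subgroup.mem_top g, h⟩, fun h => h.2⟩
  disc R := by
    refine (hK.lat.disc R).subset ?_
    rintro v ⟨⟨g, -, rfl⟩, hv⟩
    exact ⟨⟨g, rfl⟩, hv⟩
  span := by
    rw [← hK.lat.span]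
    congr 1
    ext v
    constructor
    · rintro ⟨g, -, rfl⟩
      exact ⟨g, rfl⟩
    · rintro ⟨g, rfl⟩
      exact ⟨g, Subgroup.mem_top g, rfl⟩
  max := by
    intro G' hG' _ φ hφ g hg hcg
    have hφ1 : φ 1 = 0 := by
      have := hφ 1 G'.one_mem 1 G'.one_mem
      rw [mul_one] at this
      linarith
    have hpow : ∀ x ∈ G', ∀ m : ℕ, φ (x ^ m) = m * φ x := by
      intro x hx m
      induction m with
      | zero => simp [hφ1]
      | succ m ih =>
        rw [pow_succ, hφ _ (G'.pow_mem hx m) _ hx, ih]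
        push_cast
        ring
    -- a power of `g` lies in `K`
    obtain ⟨A, hA, hAc⟩ := hK.fi
    obtain ⟨m, hm, hgm⟩ : ∃ m : ℕ, 0 < m ∧ g ^ m ∈ K := by
      have hc0 : ∀ m : ℕ, c (g ^ m) = 0 := by
        intro m
        induction m with
        | zero => simpa using hK.lat.map_one
        | succ m ih => rw [pow_succ, hK.lat.add, ih, hcg, add_zero]
      choose f hf hfm using fun m : ℕ => hAc (g ^ m) (hc0 m)
      have : Finite A := hA
      obtain ⟨a, b, hab, hfab⟩ := Finite.exists_ne_map_eq_of_infinite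
        (fun m : ℕ => (⟨f m, hf m⟩ : A))
      wlog hlt : a < b generalizing a b
      · exact this b a hab.symm hfab.symm (lt_of_le_of_ne (not_lt.1 hlt) hab.symm)
      have h1 : f a = f b := congrArg Subtype.val hfab
      refine ⟨b - a, Nat.sub_pos_of_lt hlt, ?_⟩
      have h2 := K.mul_mem (K.inv_mem (hfm a)) (hfm b)
      rw [← h1] at h2
      have h3 : ((f a)⁻¹ * g ^ a)⁻¹ * ((f a)⁻¹ * g ^ b) = g ^ (b - a) := by
        have h4 : g ^ b = g ^ a * g ^ (b - a) := by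
          rw [← pow_add]; congr 1; omega
        rw [h4]; group
      rwa [h3] at h2
    have hfg := hK.fg
    have hfgK : Group.FG (G'.subgroupOf K) := by
      have : (G'.subgroupOf K).FiniteIndex := inferInstance
      exact Subgroup.fg_of_index_ne_zero _
    have hnv : ¬ VirtIndicable (G'.subgroupOf K) := fun h =>
      hK.nvi (Vale.Agent.P284.H913.V.VirtIndicable.of_subgroup _ h)
    have h0 := Vale.Agent.P284.H221.hom_zero hfgK hnv
      (fun k : G'.subgroupOf K => φ ((k : K) : Γ)) (fun k k' => by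
        show φ (((k * k' : G'.subgroupOf K) : K) : Γ) = _
        rw [Subgroup.coe_mul, Subgroup.coe_mul]
        exact hφ _ (Subgroup.mem_subgroupOf.1 k.2) _ (Subgroup.mem_subgroupOf.1 k'.2))
      ⟨⟨g ^ m, hgm⟩, Subgroup.mem_subgroupOf.2 (G'.pow_mem hg m)⟩
    have h1 : φ (g ^ m) = 0 := h0
    rw [hpow g hg] at h1
    have h2 : (m : ℝ) ≠ 0 := by exact_mod_cast hm.ne'
    exact (mul_eq_zero.1 h1).resolve_left h2

/-- the critical values -/
def critV (n : ℕ) {X : Type} [TopologicalSpace X] [ChartedSpace (Cm n) X] {E : Type}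
    [TopologicalSpace E] (p : E → X) {q : ℕ} (F : E → Cm q) : Set (Cm q) :=
  F '' {y | ¬ Reg (n := n) p F y}

omit [MulAction Γ E] in
theorem exists_reg (hGC : GenConn (n := n) p F) : ∃ y, Reg (n := n) p F y := by
  obtain ⟨T, hT, hT0, h⟩ := hGC
  have h1 : ∃ t, t ∉ T := by
    by_contra hcon
    push Not at hcon
    have : T = univ := eq_univ_of_forall hcon
    rw [this, interior_univ] at hT0
    exact univ_nonempty.ne_empty hT0
  obtain ⟨t, ht⟩ := h1
  obtain ⟨h2, h3⟩ := h t ht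
  obtain ⟨y, hy⟩ := h2.nonempty
  exact ⟨y, h3 y hy⟩

/-- `F` is surjective -/
theorem surjF [CompactSpace X] (hp : IsGalois Γ p) (hK : KPkg Γ q c K)
    (hF : ∃ B, HolB p w F B) (hFe : ∀ g y, F (g • y) = F y + c g)
    (hGC : GenConn (n := n) p F) : Function.Surjective F := by
  obtain ⟨y₀, -⟩ := exists_reg hGC
  have : Nonempty E := ⟨y₀⟩
  have hA := alb_of hK hF hFe
  have hFc := alb_continuous hp.cov hA
  have h1 : IsClosed (range F) := by
    refine closed_of_balls fun r => ?_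
    obtain ⟨C, hC, hcov⟩ := exists_compact_K hp hA r
    have h2 : range F ∩ closedBall 0 r = F '' C ∩ closedBall 0 r := by
      ext v
      constructor
      · rintro ⟨⟨y, rfl⟩, hv⟩
        obtain ⟨k, hk, hky⟩ := hcov y (mem_closedBall_zero_iff.1 hv)
        exact ⟨⟨k • y, hky, K_smul hA hk y⟩, hv⟩
      · rintro ⟨⟨y, -, rfl⟩, hv⟩
        exact ⟨⟨y, rfl⟩, hv⟩
    rw [h2]
    exact (hC.image hFc).isClosed.inter isClosed_closedBall
  obtain ⟨T, hT, hT0, h⟩ := hGC
  have h2 : Dense (range F) := by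
    refine (interior_eq_empty_iff_dense_compl.1 hT0).mono fun t ht => ?_
    obtain ⟨y, hy⟩ := (h t ht).1.nonempty
    exact ⟨y, hy⟩
  have h3 : range F = univ := by rw [← h1.closure_eq, h2.closure_eq]
  exact range_eq_univ.1 h3

variable [IsManifold 𝓘(ℂ, Cm n) ω X]

theorem critV_closed [CompactSpace X] [Nonempty E] (hp : IsGalois Γ p) (hK : KPkg Γ q c K)
    (hF : ∃ B, HolB p w F B) (hFe : ∀ g y, F (g • y) = F y + c g) : IsClosed (critV n p F) :=
  closed_crit hp (alb_of hK hF hFe)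

theorem critV_cov [CompactSpace X] (hq : 1 ≤ q) (hp : IsGalois Γ p) (hK : KPkg Γ q c K)
    (hF : ∃ B, HolB p w F B) (hFe : ∀ g y, F (g • y) = F y + c g) :
    Cov (q - 1) (critV n p F) :=
  cov_crit hq hp (alb_of hK hF hFe)

/-- the fibres over the regular values are connected -/
theorem conn_reg [T2Space X] [CompactSpace X] [ConnectedSpace X] [ConnectedSpace E]
    (hw : IsKahler w) (hp : IsGalois Γ p) (hK : KPkg Γ q c K)
    (hF : ∃ B, HolB p w F B) (hFe : ∀ g y, F (g • y) = F y + c g)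
    (hGC : GenConn (n := n) p F) {t : Cm q} (ht : t ∉ critV n p F) :
    IsConnected (F ⁻¹' {t}) ∧ ∀ y, F y = t → Reg (n := n) p F y := by
  have hA := alb_of hK hF hFe
  have hreg : ∀ y, F y = t → Reg (n := n) p F y := by
    intro y hy
    by_contra h
    exact ht ⟨y, h, hy⟩
  refine ⟨?_, hreg⟩
  obtain ⟨B, hB⟩ := hF
  obtain ⟨h1, -, -⟩ := Vale.Agent.P284.H35.S4.s4bStmt n X w hw E Γ p hp ⊤ (kerC hK.lat) q F c hA
    t hreg
  obtain ⟨y₀, hy₀⟩ := surjF hp hK ⟨B, hB⟩ hFe hGC t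
  obtain ⟨T, hT, hT0, hTc⟩ := hGC
  have hdT : Dense Tᶜ := interior_eq_empty_iff_dense_compl.1 hT0
  have key : ∀ y y', F y = t → F y' = t → Same F y y' := by
    intro y y' hy hy'
    obtain ⟨U, hU, U', hU', h2⟩ := h1 y y' hy hy'
    have h3 : F '' U ∈ 𝓝 t := by
      rw [← hy]; exact Vale.Agent.P284.H35.S4.open_E hp.cov hB (hreg y hy) U hU
    have h4 : F '' U' ∈ 𝓝 t := by
      rw [← hy']; exact Vale.Agent.P284.H35.S4.open_E hp.cov hB (hreg y' hy') U' hU'
    obtain ⟨t', ⟨⟨x, hx, hxt⟩, ⟨x', hx', hxt'⟩⟩, ht'⟩ := (mem_closure_iff_nhds.1 (hdT t)) _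
      (inter_mem h3 h4)
    refine (h2 x hx x' hx' (hxt.trans hxt'.symm)).1 ?_
    have h5 := (hTc t' ht').1.isPreconnected
    have h6 : F ⁻¹' {F x} = F ⁻¹' {t'} := by rw [hxt]
    rw [Same, h6]
    exact h5.subset_connectedComponentIn (x := x) (by simp [hxt]) subset_rfl (by simp [hxt'])
  refine ⟨⟨y₀, hy₀⟩, ?_⟩
  have h7 : F ⁻¹' {t} = connectedComponentIn (F ⁻¹' {t}) y₀ := by
    refine subset_antisymm (fun y hy => ?_) (connectedComponentIn_subset _ _)
    have := key y₀ y hy₀ hy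
    rwa [Same, hy₀] at this
  rw [h7]
  exact isPreconnected_connectedComponentIn

/-- **Local connectedness** off the critical values and a thin set. -/
theorem loc_conn [ConnectedSpace E] (hq : 1 ≤ q) (hp : IsCoveringMap p) (hF : HolB p w F B)
    (hex : ∃ y, Reg (n := n) p F y) {T : Set (Cm q)} (hT : Cov (q - 1) T) {𝒢 : Set E}
    (h𝒢 : Thin n p 𝒢) (y : E) {O : Set E} (hO : O ∈ 𝓝 y) :
    ∃ U : Set E, IsOpen U ∧ y ∈ U ∧ U ⊆ O ∧ IsPreconnected (U ∩ (𝒢 ∩ F ⁻¹' Tᶜ)) ∧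
      (U ∩ (𝒢 ∩ F ⁻¹' Tᶜ)).Nonempty := by
  have he : At (chartAt (Cm n) (p y) : Chart n X) (p y) :=
    ⟨chart_mem_atlas _ _, mem_chart_source _ _⟩
  set e : Chart n X := chartAt (Cm n) (p y) with hee
  obtain ⟨j, hj, hjf, hj𝒢⟩ := h𝒢.thin y e he
  have hjan := hj.eventually_analyticAt
  have hjn : ∀ᶠ z in 𝓝 (e (p y)), AnalyticAt ℂ j z ∧ ∃ᶠ z' in 𝓝 z, j z' ≠ 0 := by
    have h1 : ¬ ∀ᶠ z in 𝓝 (e (p y)), j z = 0 := by
      intro h; exact hjf (h.mono fun z hz => not_not.2 hz)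
    obtain ⟨r, hr, hb⟩ := Metric.eventually_nhds_iff_ball.1 hjan
    filter_upwards [ball_mem_nhds _ hr] with z hz
    refine ⟨hb z hz, fun h2 => h1 ?_⟩
    have h3 : AnalyticOnNhd ℂ j (ball (e (p y)) r) := fun z hz => hb z hz
    have h4 := h3.eqOn_of_preconnected_of_eventuallyEq (g := fun _ => 0) analyticOnNhd_const
      (convex_ball _ _).isPreconnected hz (h2.mono fun z hz => not_not.1 hz)
    filter_upwards [ball_mem_nhds _ hr] with z hz
    exact h4 hz
  rw [← ev_iff hp he] at hjn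
  obtain ⟨ε, hε, hyε, hsub, hcv⟩ := Vale.Agent.P284.H494.exists_ch_at hp he
    (inter_mem hO (hjn.and hj𝒢))
  have hn : 1 ≤ n := by
    obtain ⟨y₁, hy₁⟩ := hex
    obtain ⟨e₁, ε₁, hε₁, hyε₁, -, -⟩ := exists_ch (n := n) hp y₁ univ_mem
    exact hq.trans (N_le_n ((hε₁.reg_iff hp hF hyε₁).1 hy₁))
  have hdense := reg_dense hq hp hF hex
  obtain ⟨y₁, hy1, hy2⟩ := hdense.inter_open_nonempty _ ε.open_source ⟨y, hyε⟩
  have h2 := (hε.reg_iff hp hF hy1).1 hy2
  have hc1 : Cov (n - 1) ((F ∘ ε.symm) ⁻¹' T ∩ ε.target) :=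
    local_cov hq ε.open_target hcv (hε.diff hF) ⟨_, ε.map_source hy1, h2⟩ hT
  have hsrc : ∀ z ∈ ε.target, ε.symm z ∈ O ∧ (AnalyticAt ℂ j z ∧ ∃ᶠ z' in 𝓝 z, j z' ≠ 0) ∧
      (j z ≠ 0 → ε.symm z ∈ 𝒢) := by
    intro z hz
    obtain ⟨h3, h4, h5⟩ := hsub (ε.map_target hz)
    have h6 : e (p (ε.symm z)) = z := by
      rw [← hε.eq _ (ε.map_target hz), ε.right_inv hz]
    rw [h6] at h4 h5
    exact ⟨h3, h4, h5⟩
  have hc2 : Cov (n - 1) {z ∈ ε.target | j z = 0} := by
    refine cov_zero (by simp; omega) ε.open_target (fun z hz =>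
      (hsrc z hz).2.1.1.differentiableAt.differentiableWithinAt) fun z hz h => ?_
    exact (hsrc z hz).2.1.2 (h.mono fun z' hz' => not_not.2 hz')
  set S : Set (Cm n) := ((F ∘ ε.symm) ⁻¹' T ∩ ε.target) ∪ {z ∈ ε.target | j z = 0} with hS
  have hcS : Cov (n - 1) S := hc1.union hc2
  set S' : Set (Cm n) := {z | ¬ (ε.symm z ∈ 𝒢 ∩ F ⁻¹' Tᶜ)} with hS'
  have hcS' : Cov (n - 1) (S' ∩ ε.target) := by
    refine hcS.mono ?_
    rintro z ⟨hz, hzt⟩
    by_contra hcon
    apply hz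
    refine ⟨(hsrc z hzt).2.2 fun h => hcon (Or.inr ⟨hzt, h⟩), fun h => hcon (Or.inl ⟨h, hzt⟩)⟩
  have h4 : ε.source ∩ (𝒢 ∩ F ⁻¹' Tᶜ) = ε.symm '' (ε.target \ S') := by
    ext y'
    constructor
    · rintro ⟨h5, h6⟩
      refine ⟨ε y', ⟨ε.map_source h5, ?_⟩, ε.left_inv h5⟩
      intro h7
      apply h7
      rw [ε.left_inv h5]
      exact h6
    · rintro ⟨z, ⟨h5, h6⟩, rfl⟩
      exact ⟨ε.map_target h5, not_not.1 h6⟩
  refine ⟨ε.source, ε.open_source, hyε, fun y' hy' => (hsub hy').1, ?_, ?_⟩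
  · rw [h4]
    exact (preconn_diff hcS' (by simp; omega) ε.open_target hcv).image _
      (ε.continuousOn_symm.mono sdiff_subset)
  · rw [h4]
    exact (nonempty_diff hcS' (by simp; omega) ε.open_target ⟨_, ε.map_source hyε⟩).image _

end

end Vale.Agent.P284.H988.T
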