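import Vale.Agent.P284.H335.CStkFin
import Vale.Agent.P284.H988.N.Defs

/-!
# P284 (helper988), T3⁺: C-STK for a clopen part `O` of the sheet

The proof of helper335, with the weights cut off by the indicator function of a set `O` which is open and
closed in the sheet. The conclusion is stated without `NPkg`.
-/

open scoped Manifold ContDiff Topology ComplexConjugate ComplexOrder InnerProductSpace
open Filter Set Metric

noncomputable section

namespace Vale.Agent.P284.H988.T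

open Vale.Agent.P272.K Vale.Agent.P284.H573 Vale.Agent.P284.H395 Vale.Agent.P284.H894
  Vale.Agent.P284.H894.G Vale.Agent.P284.H894.V Vale.Agent.P284.H894.W Vale.Agent.P284.H998
  Vale.Agent.P284.H335 Vale.Agent.P284.H988.N

section
variable {n R m s q k : ℕ} {X : Type} [TopologicalSpace X] [ChartedSpace (Cm n) X]
  {E : Type} [TopologicalSpace E]
  {H : Type} [NormedAddCommGroup H] [InnerProductSpace ℂ H]

/-- `O` is an open and closed part of the sheet of `D` (of radius `r₀`). -/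
structure ClPart (p : E → X) (v : E → Chart n X → (Fin R → Cm n) → H) (F : E → Cm q)
    (D : LeafDat q s k H) (r₀ : ℝ) (O : Set E) : Prop where
  act : ∀ y ∈ O, ∃ b ∈ ball D.b₀ r₀, Sh p v F D y b
  loc : ∀ y, NZ p v y → (∃ b ∈ ball D.b₀ r₀, Sh p v F D y b) →
    ∀ᶠ y' in 𝓝 y, (y' ∈ O ↔ y ∈ O)

open Classical in
/-- the weight on `O` -/
def PsiO (p : E → X) (v : E → Chart n X → (Fin R → Cm n) → H) (F : E → Cm q)
    (D : LeafDat q s k H) (r : ℝ) (φ : Cm s → ℝ) (O : Set E) (y : E) : ℝ :=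
  if y ∈ O then PsiF p v F D r φ y else 0

open Classical in
/-- the weighted height on `O` -/
def PhiO (p : E → X) (v : E → Chart n X → (Fin R → Cm n) → H) (F : E → Cm q)
    (D : LeafDat q s k H) (r : ℝ) (φ : Cm s → ℝ) (lr : Cm q →L[ℝ] ℝ) (O : Set E) (y : E) : ℝ :=
  if y ∈ O then PhiF p v F D r φ lr y else 0

end

section
variable {n R m s q k : ℕ} {X : Type} [TopologicalSpace X] [ChartedSpace (Cm n) X]
  [IsManifold 𝓘(ℂ, Cm n) ω X]
  {E : Type} [TopologicalSpace E] {p : E → X} {H : Type} [NormedAddCommGroup H]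
  [InnerProductSpace ℂ H] {v : E → Chart n X → (Fin R → Cm n) → H}
  {Γ : Type} [Group Γ] [MulAction Γ E] {F : E → Cm q} {D : LeafDat q s k H}
  {r r₀ ρ₀ : ℝ} {l : H →L[ℂ] ℂ} {L : H →L[ℂ] Cm s} {g : Cm s → Cm s}
  {Qe : Cm s → Cm q →L[ℂ] Cm q} {O : Set E}

lemma actO_smul (hm : 1 ≤ m) (hG : IsGalois Γ p) (hv : HForm n R m p H v)
    (hd : ∀ y e, At e (p y) → DecId n R m (v y e))
    (hF : ∀ (y : E) (e : Chart n X), At e (p y) → ∃ f : Cm n → Cm q, AnalyticAt ℂ f (e (p y)) ∧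
      ∀ᶠ y' in 𝓝 y, F y' = f (e (p y')))
    (hc : Crd D.γ D.b₀ r l L g) (S : Subgroup Γ) (hSO : ∀ g ∈ S, ∀ y ∈ O, NZ p v y → g • y ∈ O)
    (hSh : ∀ g ∈ S, ∀ y ∈ O, ∀ b ∈ ball D.b₀ r, NZ p v y → Sh p v F D y b →
      Sh p v F D (g • y) b)
    {a : Γ} (ha : a ∈ S) {y : E} (hy : NZ p v y) (hyO : y ∈ O) :
    (Act p v F D r (a • y) ↔ Act p v F D r y) ∧
      (Act p v F D r y → bOf p v F D r (a • y) = bOf p v F D r y) := by
  have hpa : p y = p (a • y) := (hG.orb _ _).2 ⟨a, rfl⟩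
  have hy' : NZ p v (a • y) := nz_proj hv hpa hy
  refine ⟨⟨?_, ?_⟩, ?_⟩
  · rintro ⟨b, hb, hs⟩
    have := hSh a⁻¹ (S.inv_mem ha) _ (hSO a ha y hyO hy) b hb hy' hs
    rw [inv_smul_smul] at this
    exact ⟨b, hb, this⟩
  · rintro ⟨b, hb, hs⟩
    exact ⟨b, hb, hSh a ha _ hyO b hb hy hs⟩
  · intro hA
    have he : At (chartAt (Cm n) (p (a • y)) : Chart n X) (p (a • y)) :=
      ⟨chart_mem_atlas _ _, mem_chart_source _ _⟩
    obtain ⟨G, f, hrep⟩ := exists_rep' hm hG.cov hv hd hF hy' he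
    have h1 := hSh a ha _ hyO _ (bOf_mem hA) hy (bOf_sh hA)
    have h2 : Act p v F D r (a • y) := ⟨_, bOf_mem hA, h1⟩
    exact sh_unique hG.cov hv hc he hrep (bOf_mem h2) (bOf_mem hA) (bOf_sh h2) h1

variable [CompleteSpace H]

/-- the local formula on `O` -/
lemma phiO_local (hm : 1 ≤ m) (hG : IsGalois Γ p) (hv : HForm n R m p H v) {c : Γ → Cm q}
    (hFc : ∀ g y, F (g • y) = F y + c g)
    (hd : ∀ y e, At e (p y) → DecId n R m (v y e))
    (hF : ∀ (y : E) (e : Chart n X), At e (p y) → ∃ f : Cm n → Cm q, AnalyticAt ℂ f (e (p y)) ∧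
      ∀ᶠ y' in 𝓝 y, F y' = f (e (p y')))
    (hc : Crd D.γ D.b₀ r l L g) (ht : ∀ b ∈ ball D.b₀ r, AnalyticAt ℂ D.t b)
    (hE : Eqs D.N Qe D.b₀ r) (hρ₀ : ρ₀ < r) {φ : Cm s → ℝ} (hφs : ContDiff ℝ ∞ φ)
    (hφ : ∀ b, φ b ≠ 0 → b ∈ closedBall D.b₀ ρ₀) (lr : Cm q →L[ℝ] ℝ)
    {ρ : Chart n X → Cm n → Matrix (Fin n) (Fin n) ℂ}
    (hform : ∀ (y : E) (e : Chart n X), At e (p y) → ∀ V : Cm n × (Fin R → Cm n) → H,
        (∀ ξ, AnalyticAt ℂ V (e (p y), ξ)) → (∀ᶠ y' in 𝓝 y, ∀ ξ, v y' e ξ = V (e (p y'), ξ)) →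
        ∀ ξ, v y e ξ ≠ 0 →
          ρ e (e (p y)) = cHess (fun z => Real.log (‖V (z, ξ)‖ ^ 2)) (e (p y)))
    (hrr : r ≤ r₀) (hO : ClPart p v F D r₀ O)
    {y : E} {e : Chart n X} (he : At e (p y)) (hy : NZ p v y) :
    ContinuousAt (PsiO p v F D r φ O) y ∧
    ∃ P : Cm n → ℝ, ContDiffAt ℝ ∞ P (e (p y)) ∧
      (∀ᶠ y' in 𝓝 y, PhiO p v F D r φ lr O y' = P (e (p y'))) ∧
      ∀ ξ : Cm n, (∀ k, ∑ j, ρ e (e (p y)) j k * ξ j = 0) →
        ∑ j, dz j (fun z => (P z : ℂ)) (e (p y)) * ξ j =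
          (PsiO p v F D r φ O y : ℂ) * ∑ j, alphaF p F lr e (e (p y)) j * ξ j := by
  obtain ⟨h1, P, h2, h3, h4⟩ := phi_local hm hG hv hFc hd hF hc ht hE hρ₀ hφs hφ lr hform he hy
  -- either `PsiO = PsiF` nearby, or `PsiO = 0` nearby
  have hcase : (∀ᶠ y' in 𝓝 y, y' ∈ O) ∨ ∀ᶠ y' in 𝓝 y, PsiO p v F D r φ O y' = 0 := by
    by_cases hA : Act p v F D r y
    · obtain ⟨b, hb, hb'⟩ := hA
      have h5 := hO.loc y hy ⟨b, ball_subset_ball hrr hb, hb'⟩
      by_cases hyO : y ∈ O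
      · exact Or.inl (h5.mono fun y' h => h.2 hyO)
      · refine Or.inr (h5.mono fun y' h => ?_)
        rw [PsiO, if_neg fun h6 => hyO (h.1 h6)]
    · right
      obtain ⟨G, f, hrep⟩ := exists_rep' hm hG.cov hv hd hF hy he
      filter_upwards [psi_zero hG.cov hv hc ht hE hρ₀ hφ he hrep hA] with y' a
      rw [PsiO]
      split_ifs
      · exact a
      · rfl
  rcases hcase with hc1 | hc0
  · refine ⟨h1.congr (hc1.mono fun y' h => ?_), P, h2, ?_, fun ξ hξ => ?_⟩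
    · rw [PsiO, if_pos h]
    · filter_upwards [h3, hc1] with y' a b
      rw [PhiO, if_pos b, a]
    · rw [h4 ξ hξ, PsiO, if_pos hc1.self_of_nhds]
  · refine ⟨(continuousAt_const (y := (0 : ℝ))).congr (hc0.mono fun y' a => a.symm), fun _ => 0,
      contDiffAt_const, ?_, fun ξ _ => ?_⟩
    · filter_upwards [hc0] with y' a
      rw [PhiO]
      split_ifs with h5
      · rw [PsiO, if_pos h5] at a
        rw [PhiF, a, zero_mul]
      · rfl
    · rw [hc0.self_of_nhds]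
      simp only [Complex.ofReal_zero, zero_mul]
      refine Finset.sum_eq_zero fun j _ => ?_
      rw [C2.dz_const, zero_mul]

end

/-- **C-STK** for a clopen part `O` of the sheet: the plane `Q` of the leaf is spanned by periods of `S`
in `Q`. -/
def CStkOStmt : Prop :=
  ∀ (n : ℕ) (X : Type) [TopologicalSpace X] [T2Space X] [CompactSpace X] [ConnectedSpace X]
    [ChartedSpace (Cm n) X] [IsManifold 𝓘(ℂ, Cm n) ω X]
    (w : Chart n X → Cm n → Matrix (Fin n) (Fin n) ℂ) (_ : IsKahler w)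
    (E Γ : Type) [TopologicalSpace E] [ConnectedSpace E] [Group Γ] [MulAction Γ E]
    (p : E → X) (_ : IsGalois Γ p)
    (q : ℕ) (F : E → Cm q) (c : Γ → Cm q) (_ : ∃ B, HolB p w F B)
    (_ : ∀ g y, F (g • y) = F y + c g)
    (H : Type) [NormedAddCommGroup H] [InnerProductSpace ℂ H] [CompleteSpace H]
    (R m : ℕ) (_ : 1 ≤ R) (_ : 1 ≤ m) (v : E → Chart n X → (Fin R → Cm n) → H)
    (_ : HForm n R m p H v)
    (s k : ℕ) (D : LeafDat q s k H) (y₀ : E) (_ : LeafAt m p v F D y₀)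
    (S : Subgroup Γ) (r₀ : ℝ) (_ : 0 < r₀) (O : Set E) (_ : ClPart p v F D r₀ O) (_ : y₀ ∈ O)
    (_ : ∀ g ∈ S, ∀ y ∈ O, NZ p v y → g • y ∈ O)
    (_ : ∀ g ∈ S, ∀ y ∈ O, ∀ b ∈ ball D.b₀ r₀, NZ p v y → Sh p v F D y b →
      Sh p v F D (g • y) b)
    (_ : ∀ K₀ : Set E, IsCompact K₀ → (∀ y ∈ K₀, NZ p v y) →
      {a : Γ ⧸ S | ∃ g : Γ, (g : Γ ⧸ S) = a ∧ ∃ y ∈ K₀, g⁻¹ • y ∈ O}.Finite),
    ∀ x ∈ D.Q D.b₀, x ∈ Submodule.span ℝ ({x | ∃ g ∈ S, c g = x} ∩ (D.Q D.b₀ : Set (Cm q)))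

/-- **C-STK** for a clopen part, from the analytic part and the potential -/
theorem cstkO_of (hA : StkAStmt) (hU : StkUStmt) : CStkOStmt := by
  intro n X _ _ _ _ _ _ w hw E Γ _ _ _ _ p hG q F c hB hFc H _ _ _ R m hR hm v hv s k D
    y₀ hL S r₀ hr₀ O hO hy₀O hSO hSh hLF
  obtain ⟨B, hB⟩ := hB
  have hFa : ∀ (y : E) (e : Chart n X), At e (p y) → ∃ f : Cm n → Cm q,
      AnalyticAt ℂ f (e (p y)) ∧ ∀ᶠ y' in 𝓝 y, F y' = f (e (p y')) := fun y e he =>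
    Vale.Agent.P284.H221.holB_an hB y he
  obtain ⟨e₀, b, β₀, f₀, he₀, hb, hbs, hβ₀, hβ₀s, hβ₀b, hf₀e, hf₀, hnf, hQ, hQs⟩ := hL
  have hNF : NFAt p R m s v y₀ := ⟨e₀, b, β₀, D.γ, he₀, hb, hbs, hβ₀, by rw [hβ₀b]; exact D.γan,
    by rw [hβ₀b]; exact D.imm.1, hnf⟩
  have hd := dec_of_nf hR hm hG.cov hv hNF
  obtain ⟨hZcl, ρ, C, u, hρ, hu, hform⟩ := hU n X w hw E p hG.cov hG.surj H R m s hR hm v hv y₀ hNF
  set Z : Set X := {x | ∃ y, p y = x ∧ ¬ NZ p v y} with hZ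
  have hZn : ∀ y, p y ∉ Z ↔ NZ p v y := by
    intro y
    constructor
    · intro h
      by_contra h1
      exact h ⟨y, rfl, h1⟩
    · rintro h ⟨y', h1, h2⟩
      exact h2 (nz_proj hv h1.symm h)
  -- the constants
  obtain ⟨r₁, l, L, g, hc₁⟩ := exists_crd D.γan D.imm
  obtain ⟨r₂, Qe, hr₂, hE₂⟩ := exists_eqs D.Nan D.inj
  obtain ⟨r₃, hr₃, ht₃⟩ := Metric.eventually_nhds_iff_ball.1 D.tan.eventually_analyticAt
  set r : ℝ := min (min r₀ r₁) (min r₂ r₃) with hr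
  have hr0 : 0 < r := lt_min (lt_min hr₀ hc₁.r_pos) (lt_min hr₂ hr₃)
  have hrr₀ : r ≤ r₀ := (min_le_left _ _).trans (min_le_left _ _)
  have hc : Crd D.γ D.b₀ r l L g := hc₁.mono hr0 ((min_le_left _ _).trans (min_le_right _ _))
  have hE : Eqs D.N Qe D.b₀ r := hE₂.mono ((min_le_right _ _).trans (min_le_left _ _))
  have ht : ∀ b ∈ ball D.b₀ r, AnalyticAt ℂ D.t b := fun b hb =>
    ht₃ b (ball_subset_ball ((min_le_right _ _).trans (min_le_right _ _)) hb)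
  have hSh' : ∀ g ∈ S, ∀ y ∈ O, ∀ b ∈ ball D.b₀ r, NZ p v y → Sh p v F D y b →
      Sh p v F D (g • y) b := fun g hg y hy b hb => hSh g hg y hy b (ball_subset_ball hrr₀ hb)
  let bump : ContDiffBump D.b₀ := ⟨r / 4, r / 2, by linarith, by linarith⟩
  set φ : Cm s → ℝ := fun b => bump b with hφd
  have hφs : ContDiff ℝ ∞ φ := bump.contDiff
  have hφ0 : ∀ b, 0 ≤ φ b := fun b => bump.nonneg
  have hφ : ∀ b, φ b ≠ 0 → b ∈ closedBall D.b₀ (r / 2) := by
    intro b hb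
    have h1 : b ∈ Function.support bump := hb
    rw [bump.support_eq] at h1
    exact ball_subset_closedBall h1
  have hρ₀ : r / 2 < r := by linarith
  -- the starting point
  have hx₀b : D.b₀ ∈ ball D.b₀ r := mem_ball_self hr0
  have hNZ₀ : NZ p v y₀ := by
    obtain ⟨ξ, hξ⟩ := exists_frame hbs
    refine ⟨e₀, he₀, ξ, ?_⟩
    rw [hnf.self_of_nhds ξ, hβ₀b]
    exact smul_ne_zero (pow_ne_zero _ hξ) D.imm.1
  have hsh₀ : Sh p v F D y₀ D.b₀ := by
    refine ⟨e₀, β₀, he₀, hβ₀, hβ₀b, ?_⟩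
    filter_upwards [hnf, hQ] with y a1 a2
    exact ⟨fun ξ => ⟨_, a1 ξ⟩, a2⟩
  have hAct₀ : Act p v F D r y₀ := ⟨_, hx₀b, hsh₀⟩
  obtain ⟨ξ₀, hξ₀⟩ := nz_chart hv hNZ₀ he₀
  obtain ⟨V, f, hV, hVe, hrep⟩ := exists_rep hm hG.cov hv hd hFa he₀ hξ₀
  have hb₀ : bOf p v F D r y₀ = D.b₀ :=
    sh_unique hG.cov hv hc he₀ hrep (bOf_mem hAct₀) hx₀b (bOf_sh hAct₀) hsh₀
  -- the kernel of `ρ` at the starting point
  have hker : ∀ ξ : Cm n, (∀ k, ∑ j, ρ e₀ (e₀ (p y₀)) j k * ξ j = 0) ↔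
      fderiv ℂ β₀ (e₀ (p y₀)) ξ = 0 := by
    intro ξ
    rw [hform y₀ e₀ he₀ V hV hVe ξ₀ hξ₀]
    refine ker_iff (W := fun z => V (z, ξ₀)) (γ := D.γ) hrep.an hrep.ne hβ₀ (by rw [hβ₀b]; exact D.γan)
      (by rw [hβ₀b]; exact D.imm) ?_ ξ
    rw [← ev_iff hG.cov he₀]
    filter_upwards [hVe, hnf] with y a1 a2
    exact ⟨_, by rw [← a1, a2]⟩
  have hrank : (ρ e₀ (e₀ (p y₀))).rank = s := rank_eq hβ₀s hker
  -- the key step
  have key : ∀ lr : Cm q →L[ℝ] ℝ, (∀ a ∈ S, lr (c a) = 0) → ∀ x ∈ D.Q D.b₀, lr x = 0 := by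
    intro lr hlr x hx
    obtain ⟨F', G', hF'2, hG'0, hF's, hG'c, hfor, hG'p⟩ := coset_sum hG hZcl S
      (PhiO p v F D r φ lr O) (PsiO p v F D r φ O) ρ (alphaF p F lr)
      (by
        intro a ha y hy
        rw [hZn] at hy
        by_cases hyO : y ∈ O
        · obtain ⟨h1, h2⟩ := actO_smul hm hG hv hd hFa hc S hSO hSh' ha hy hyO
          have haO : a • y ∈ O := hSO a ha y hyO hy
          have h3 : PsiF p v F D r φ (a • y) = PsiF p v F D r φ y := by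
            by_cases h4 : Act p v F D r y
            · rw [PsiF, PsiF, if_pos h4, if_pos (h1.2 h4), h2 h4]
            · rw [PsiF, PsiF, if_neg h4, if_neg fun h5 => h4 (h1.1 h5)]
          rw [PhiO, PhiO, PsiO, PsiO, if_pos haO, if_pos hyO, if_pos haO, if_pos hyO]
          refine ⟨?_, h3⟩
          by_cases h4 : Act p v F D r y
          · rw [PhiF, PhiF, h3, h2 h4, hFc]
            congr 1
            rw [map_sub, map_add, hlr a ha, add_zero, map_sub]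
          · have h5 : PsiF p v F D r φ y = 0 := by rw [PsiF, if_neg h4]
            rw [PhiF, PhiF, h3, h5, zero_mul, zero_mul]
        · have haO : a • y ∉ O := fun h => by
            have hpa : p y = p (a • y) := (hG.orb _ _).2 ⟨a, rfl⟩
            have := hSO a⁻¹ (S.inv_mem ha) _ h (nz_proj hv hpa hy)
            rw [inv_smul_smul] at this
            exact hyO this
          rw [PhiO, PhiO, PsiO, PsiO, if_neg haO, if_neg hyO, if_neg haO, if_neg hyO]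
          exact ⟨rfl, rfl⟩)
      (by
        intro y
        rw [PsiO]
        split_ifs
        · by_cases h4 : Act p v F D r y
          · rw [PsiF, if_pos h4]; exact hφ0 _
          · rw [PsiF, if_neg h4]
        · exact le_rfl)
      (by
        intro y hy
        rw [hZn] at hy
        obtain ⟨K₀, hK₀, hK₀c, hK₀n⟩ := exists_cpt hG.cov hv hy
        refine ⟨K₀, hK₀, (hLF K₀ hK₀c hK₀n).subset ?_⟩
        rintro a ⟨g', hg', y', hy', h1⟩
        refine ⟨g', hg', y', hy', ?_⟩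
        by_contra hno
        rw [PhiO, PsiO, if_neg hno, if_neg hno] at h1
        simp at h1)
      (by
        intro y hy
        rw [hZn] at hy
        have he : At (chartAt (Cm n) (p y) : Chart n X) (p y) :=
          ⟨chart_mem_atlas _ _, mem_chart_source _ _⟩
        exact (phiO_local hm hG hv hFc hd hFa hc ht hE hρ₀ hφs hφ lr hform hrr₀ hO he hy).1)
      (by
        intro y e he hy
        rw [hZn] at hy
        exact (phiO_local hm hG hv hFc hd hFa hc ht hE hρ₀ hφs hφ lr hform hrr₀ hO he hy).2)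
    have hx₀ : p y₀ ∉ Z := (hZn y₀).2 hNZ₀
    have hpos : 0 < G' (p y₀) := by
      refine hG'p y₀ hx₀ ?_
      rw [PsiO, if_pos hy₀O, PsiF, if_pos hAct₀, hb₀]
      exact bump.pos_of_mem_ball (mem_ball_self (by simp only [bump]; linarith))
    obtain ⟨ζ, hζ1, hζ2⟩ := hQs x hx
    have h1 := hA n X w hw Z hZcl s ρ hρ C u hu (alphaF p F lr)
      (alphaF_isAlpha hG hFc lr hFa) F' G' 2 hF'2 hG'0 hF's hG'c hfor e₀ (p y₀) he₀ hx₀ hrank
      hpos ζ ((hker ζ).2 hζ1)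
    have h2 : ∑ j, alphaF p F lr e₀ (e₀ (p y₀)) j * ζ j = cpx lr x / 2 := by
      rw [← hζ2, ← dz_lr_sum hf₀.differentiableAt]
      refine Finset.sum_congr rfl fun j _ => ?_
      rw [alphaF_eq hG hFc lr he₀ hf₀ hf₀e j]
    rw [h2] at h1
    have h3 : cpx lr x = 0 := by
      rcases div_eq_zero_iff.1 h1 with h | h
      · exact h
      · norm_num at h
    rw [← cpx_re, h3, Complex.zero_re]
  -- the periods of `S` lie in `Q`
  have hSQ : ∀ a ∈ S, c a ∈ D.Q D.b₀ := by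
    intro a ha
    have hpa : p (a • y₀) = p y₀ := ((hG.orb _ _).2 ⟨a, rfl⟩).symm
    obtain ⟨e', β', he', hβ', hβ'b, hev'⟩ := hSh a ha y₀ hy₀O D.b₀ (mem_ball_self hr₀) hNZ₀ hsh₀
    obtain ⟨e'', β'', he'', hβ'', hβ''b, hev''⟩ := hsh₀
    have h1 := hev'.self_of_nhds.2
    have h2 := hev''.self_of_nhds.2
    rw [hβ'b, hFc] at h1
    rw [hβ''b] at h2
    have h3 := Submodule.sub_mem _ h1 h2
    have h4 : F y₀ + c a - D.t D.b₀ - (F y₀ - D.t D.b₀) = c a := by abel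
    rwa [h4] at h3
  -- the conclusion
  intro x hx
  by_contra hcon
  obtain ⟨lr, h1, h2⟩ := Submodule.exists_le_ker_of_notMem hcon
  set lr' : Cm q →L[ℝ] ℝ := LinearMap.toContinuousLinearMap lr with hlr'
  refine h1 (key lr' (fun a ha => ?_) x hx)
  have h3 : c a ∈ Submodule.span ℝ ({x | ∃ g ∈ S, c g = x} ∩ (D.Q D.b₀ : Set (Cm q))) :=
    Submodule.subset_span ⟨⟨a, ha, rfl⟩, hSQ a ha⟩
  exact LinearMap.mem_ker.1 (h2 h3)

/-- **C-STK** for a clopen part -/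
theorem cstkO : CStkOStmt :=
  cstkO_of Vale.Agent.P284.H395.stkA Vale.Agent.P284.H998.stkUStmt

end Vale.Agent.P284.H988.T
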