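import Vale.Agent.P284.H988.T.LFOS
import Vale.Agent.P284.H501.T.Lcn

/-!
# P284 (helper988), T3⁺, (T5): `LFOStmt`, unconditional
-/

noncomputable section

namespace Vale.Agent.P284.H988.T

/-- **(T5)** -/
theorem lfoStmt : H650.T.LFOStmt := lfoStmt_of (H501.Lcn.leafConst H619.T.thStmt sepStmt)

end Vale.Agent.P284.H988.T
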