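import Vale.Agent.P284.H988.T.Gen

/-!
# P284 (helper988), T3⁺: elements acting trivially on `W` whose displacement vanishes over an open set
-/

open scoped Manifold ContDiff Topology InnerProductSpace ComplexConjugate
open Filter Set Metric

noncomputable section

set_option linter.unusedSectionVars false

namespace Vale.Agent.P284.H988.T

open Vale.Agent.P272.K Vale.Agent.P284.H894.G Vale.Agent.P284.H894.V Vale.Agent.P284.H894.W
  Vale.Agent.P284.H213.Grp Vale.Agent.P284.H619 Vale.Agent.P284.H10 Vale.Agent.P284.H573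
  Vale.Agent.P284.H625 Vale.Agent.P284.H378 Vale.Agent.P284.H212 Vale.Agent.P284.H395
  Vale.Agent.P284.H478.G Vale.Agent.P284.H494
open Vale.Agent.P284.H573.GG (rel_iff lc_onL)
open Vale.Agent.P284.H650.T (TwoPot JPot TEqui AffTriv JDat Std IsJ)

section
variable {n q : ℕ} {X : Type} [TopologicalSpace X] [ChartedSpace (Cm n) X]
  {E : Type} [TopologicalSpace E] {Γ : Type}
  [Group Γ] [MulAction Γ E] {p : E → X} {F : E → Cm q}
  {w : Chart n X → Cm n → Matrix (Fin n) (Fin n) ℂ} {B : ℝ}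
  {W : Type} [NormedAddCommGroup W] [InnerProductSpace ℂ W]
  {Θ : E → Chart n X → (Cm n →L[ℂ] W)} {J : W →SL[starRingEnd ℂ] W} {T : E → E → W}
  {π : Γ →* (W ≃ₗᵢ[ℂ] W)} {c : Γ → Cm q}

/-- the displacement of an element with `π a = 1` is constant on the fibres -/
theorem disp_const (hT : TwoPot p F Θ J T) (hTe : TEqui n p F π T)
    (hFe : ∀ g y, F (g • y) = F y + c g) {a : Γ} (hc : c a = 0) (hπ : π a = 1) {y y' : E}
    (h : F y = F y') (hR : F y ∈ RV n p F) : T y (a • y) = T y' (a • y') := by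
  have e1 : F (a • y) = F y := by rw [hFe, hc, add_zero]
  have e2 : F (a • y') = F y' := by rw [hFe, hc, add_zero]
  have h1 := hT.add y (a • y) (a • y') e1.symm (by rw [e1, e2, h]) hR
  have h2 := hT.add y y' (a • y') h e2.symm hR
  have h3 : T (a • y) (a • y') = T y y' := by
    rw [hTe a y y' h hR, hπ]; rfl
  rw [h3] at h1
  have h4 : T y (a • y) + T y y' = T y' (a • y') + T y y' := by
    rw [h1, ← h2, add_comm]
  exact add_right_cancel h4

variable [IsManifold 𝓘(ℂ, Cm n) ω X] [CompleteSpace W]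

/-- **affine faithfulness, germ form** -/
theorem aff_zero (hp : IsGalois Γ p) (hF : HolB p w F B) (hFe : ∀ g y, F (g • y) = F y + c g)
    (hRo : IsOpen (RV n p F)) (hRc : IsPreconnected (RV n p F))
    (hne : ∀ t ∈ RV n p F, (F ⁻¹' {t}).Nonempty)
    (hT : TwoPot p F Θ J T) (hTe : TEqui n p F π T)
    (hJP : ∀ y e, Reg (n := n) p F y → At e (p y) → ∃ G, JPot p F Θ y e G) {a : Γ} (hc : c a = 0)
    (hπ : π a = 1) {t₀ : Cm q} (ht₀ : t₀ ∈ RV n p F)
    (h : ∀ᶠ t in 𝓝 t₀, ∀ y, F y = t → F y ∈ RV n p F → T y (a • y) = 0) :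
    AffTriv n p F π T a := by
  refine ⟨hπ, ?_⟩
  suffices h1 : ∀ t ∈ RV n p F, t ∈ {t | ∀ᶠ t' in 𝓝 t, ∀ y, F y = t' → F y ∈ RV n p F →
      T y (a • y) = 0} from fun y hy => (h1 (F y) hy).self_of_nhds y rfl hy
  have hpg : ∀ (g : Γ) (y : E), p (g • y) = p y := fun g y => ((hp.orb y (g • y)).2 ⟨g, rfl⟩).symm
  have hFc : Continuous F := hol_continuous hp.cov hF
  refine H573.DK.pc_clopen hRc hRo (fun t _ ht => ht.eventually_nhds) ?_ ⟨t₀, ht₀, h⟩
  intro t htR hfr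
  obtain ⟨y₀, hy₀⟩ := hne t htR
  have hy₀' : F y₀ = t := hy₀
  have he : At (chartAt (Cm n) (p y₀) : Chart n X) (p y₀) :=
    ⟨chart_mem_atlas _ _, mem_chart_source _ _⟩
  set e : Chart n X := chartAt (Cm n) (p y₀) with hee
  have hreg : Reg (n := n) p F y₀ := htR y₀ hy₀'
  have hFa : F (a • y₀) = F y₀ := by rw [hFe, hc, add_zero]
  have hreg' : Reg (n := n) p F (a • y₀) := htR _ (by rw [hFa, hy₀'])
  have he' : At e (p (a • y₀)) := by rw [hpg]; exact he
  obtain ⟨G, hG⟩ := hJP y₀ e hreg he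
  obtain ⟨G', hG'⟩ := hJP (a • y₀) e hreg' he'
  obtain ⟨a₀, ha₀, hev⟩ := hT.loc y₀ (a • y₀) e e G G' hFa.symm (by rw [hy₀']; exact htR) he he' hG hG'
  have hG'an : AnalyticAt ℂ G' (e (p y₀)) := by
    have := hG'.an
    rwa [hpg] at this
  have hl : Tendsto (fun y : E => (y, a • y)) (𝓝 y₀) (𝓝 (y₀, a • y₀)) := by
    rw [nhds_prod_eq]
    exact tendsto_id.prodMk (hp.cont a).continuousAt
  have hloc : ∀ᶠ y in 𝓝 y₀, T y (a • y) = (G' (e (p y)) - G (e (p y)) + a₀ (F y)) +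
      J (G' (e (p y)) - G (e (p y)) + a₀ (F y)) := by
    filter_upwards [hl.eventually hev] with y h1
    have h2 := h1 (by show F y = F (a • y); rw [hFe, hc, add_zero])
    simp only [hpg] at h2
    exact h2
  have hGe : ∀ᶠ y in 𝓝 y₀, AnalyticAt ℂ G (e (p y)) ∧ AnalyticAt ℂ G' (e (p y)) ∧
      AnalyticAt ℂ a₀ (F y) ∧ F y ∈ RV n p F := by
    refine ((ev_iff hp.cov he).2 hG.an.eventually_analyticAt).and
      (((ev_iff hp.cov he).2 hG'an.eventually_analyticAt).and ?_)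
    exact (hFc.continuousAt.eventually ha₀.eventually_analyticAt).and
      (hFc.continuousAt.eventually (by rw [hy₀']; exact hRo.mem_nhds htR))
  obtain ⟨ε, hε, hyε, hsub, hcv⟩ := exists_ch_at hp.cov he (hloc.and hGe)
  set Φ : Cm n → W := fun z => G' z - G z + a₀ (F (ε.symm z)) with hΦ
  have hΦan : ∀ z ∈ ε.target, AnalyticAt ℂ Φ z := by
    intro z hz
    obtain ⟨-, h2, h3, h4, -⟩ := hsub (ε.map_target hz)
    have h6 : e (p (ε.symm z)) = z := by
      rw [← hε.eq _ (ε.map_target hz), ε.right_inv hz]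
    rw [h6] at h2 h3
    refine (h3.sub h2).add ?_
    exact AnalyticAt.comp (g := a₀) (f := fun z => F (ε.symm z)) h4 (Vale.Agent.P284.H494.IsCh.analytic hε hF z hz)
  have hval : ∀ y ∈ ε.source, T y (a • y) = Φ (ε y) + J (Φ (ε y)) := by
    intro y hy
    have h2 := (hsub hy).1
    rw [h2]
    simp only [hΦ]
    rw [ε.left_inv hy, hε.eq _ hy]
  have hop : ∀ y ∈ ε.source, ∀ O ∈ 𝓝 y, F '' O ∈ 𝓝 (F y) := fun y hy O hO =>
    H35.S4.open_E hp.cov hF ((hsub hy).2.2.2.2 y rfl) O hO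
  have hFs : F '' ε.source ∈ 𝓝 t := by
    rw [← hy₀']
    exact hop y₀ hyε _ (ε.open_source.mem_nhds hyε)
  obtain ⟨t', ⟨ht'R, ht'⟩, y₁, hy₁, hy₁t⟩ := (hfr.and_eventually hFs).exists
  have hz₁ : ∀ᶠ z in 𝓝 (ε y₁), Φ z + J (Φ z) = 0 := by
    have h2 : ∀ᶠ y in 𝓝 y₁, T y (a • y) = 0 := by
      rw [← hy₁t] at ht'
      filter_upwards [hFc.continuousAt.eventually ht', hFc.continuousAt.eventually
        (hRo.mem_nhds ((hsub hy₁).2.2.2.2))] with y h3 h4
      exact h3 y rfl h4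
    have h3 := (ε.continuousAt_symm (ε.map_source hy₁)).eventually (by
      rw [ε.left_inv hy₁]; exact h2)
    filter_upwards [h3, ε.open_target.mem_nhds (ε.map_source hy₁)] with z h4 h5
    have h6 := hval _ (ε.map_target h5)
    rw [ε.right_inv h5] at h6
    rw [← h6]; exact h4
  have hall := rj_zero hcv.isPreconnected hΦan (ε.map_source hy₁) hz₁
  show ∀ᶠ t' in 𝓝 t, _
  filter_upwards [hFs] with t₁ ht₁ y hyt hyR
  obtain ⟨y₂, hy₂, hy₂t⟩ := ht₁
  rw [disp_const hT hTe hFe hc hπ (hyt.trans hy₂t.symm) hyR, hval y₂ hy₂]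
  exact hall _ (ε.map_source hy₂)

end

end Vale.Agent.P284.H988.T
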