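import Vale.Agent.P284.H988.T.Unif
import Vale.Agent.P284.H478.G.Comp
import Vale.Agent.P284.H573.G.Zero

/-!
# P284 (helper988), T3⁺: near identity elements commute with `K`
-/

open scoped Manifold ContDiff Topology InnerProductSpace ComplexConjugate
open Filter Set Metric

noncomputable section

set_option linter.unusedSectionVars false

namespace Vale.Agent.P284.H988.T

open Vale.Agent.P272.K Vale.Agent.P284.H894.G Vale.Agent.P284.H894.V Vale.Agent.P284.H894.W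
  Vale.Agent.P284.H213.Grp Vale.Agent.P284.H619 Vale.Agent.P284.H10 Vale.Agent.P284.H573
  Vale.Agent.P284.H625 Vale.Agent.P284.H378 Vale.Agent.P284.H212 Vale.Agent.P284.H395
  Vale.Agent.P284.H478.G Vale.Agent.P284.H494
open Vale.Agent.P284.H650.T (TwoPot JPot TEqui AffTriv JDat Std IsJ)
open Vale.Agent.P284.H573.GG (Rel rel_iff lc_onL)

section
variable {n q r k s m : ℕ} {X E Γ W H : Type} [TopologicalSpace X] [ChartedSpace (Cm n) X]
  [TopologicalSpace E] [Group Γ] [MulAction Γ E]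
  [NormedAddCommGroup W] [InnerProductSpace ℂ W] [CompleteSpace W] [NormedAddCommGroup H]
  [InnerProductSpace ℂ H] [CompleteSpace H] {p : E → X} {F : E → Cm q}
  {w : Chart n X → Cm n → Matrix (Fin n) (Fin n) ℂ} {B : ℝ}
  {v : E → Chart n X → (Fin (q + r) → Cm n) → H}
  {U : Γ → (H →ₗᵢ[ℂ] H)} {π : Γ →* (W ≃ₗᵢ[ℂ] W)} {Θ : E → Chart n X → (Cm n →L[ℂ] W)}
  {N : Cm k →L[ℂ] Cm q} {P : Cm q →L[ℂ] Cm k} {c : Γ → Cm q} {𝒢 : Set E} {T : E → E → W}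
  {J : W →SL[starRingEnd ℂ] W} {K : Subgroup Γ}

/-- elements with `π g = 1` fix the lines -/
theorem u_triv (hequi : ∀ (g : Γ) y (e : Chart n X), At e (p y) → ∀ ξ, v (g • y) e ξ = U g (v y e ξ))
    (htriv : ∀ g : Γ, π g = 1 → ∀ y (e : Chart n X), At e (p y) → ∀ ξ, v (g • y) e ξ = v y e ξ)
    {g : Γ} (hg : π g = 1) {y : E} {x : H} (hz : NZ p v y) (hx : OnL p v y x) : U g x = x := by
  obtain ⟨e, ξ, a, he, -, rfl⟩ := hx.exists_val hz
  simp only [map_smul]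
  rw [← hequi _ _ e he, htriv g hg y e he]

/-- conjugation of the relation -/
theorem rel_kappa
    (hequi : ∀ (g : Γ) y (e : Chart n X), At e (p y) → ∀ ξ, v (g • y) e ξ = U g (v y e ξ))
    (htriv : ∀ g : Γ, π g = 1 → ∀ y (e : Chart n X), At e (p y) → ∀ ξ, v (g • y) e ξ = v y e ξ)
    (hpsm : ∀ (g : Γ) (y : E), p (g • y) = p y) {g κ : Γ} (hπ : π (g * κ) = π (κ * g)) {y y' : E}
    (hz : NZ p v y) (h : Rel p v (U g) y y') : Rel p v (U g) (κ • y) (κ • y') := by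
  refine (H573.GG.rel_smul hequi hpsm g κ hz).2 ?_
  intro x hx
  have h1 : κ⁻¹ * g * κ = g * (g⁻¹ * (κ⁻¹ * g * κ)) := by group
  have h2 : π (g⁻¹ * (κ⁻¹ * g * κ)) = 1 := by
    have h3 : π (κ⁻¹ * g * κ) = π g := by
      rw [mul_assoc, map_mul, hπ, ← map_mul, inv_mul_cancel_left]
    rw [map_mul, h3, ← map_mul, inv_mul_cancel, map_one]
  rw [h1, U_mul hequi hpsm _ _ hz hx, u_triv hequi htriv h2 hz hx]
  exact h x hx

/-- the line of a point of the sheet -/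
theorem sh_line {R : ℕ} {v : E → Chart n X → (Fin R → Cm n) → H} (hH : HForm n R m p H v)
    {D : LeafDat q s k H} {y : E} {b : Cm s} {x : H} (hz : NZ p v y) (hx : OnL p v y x)
    (h : Sh p v F D y b) : ∃ a : ℂ, a ≠ 0 ∧ x = a • D.γ b := by
  obtain ⟨e, β, he, -, hb, h1⟩ := h
  obtain ⟨ξ, hξ⟩ := H335.nz_chart hH hz he
  obtain ⟨a, ha⟩ := h1.self_of_nhds.1 ξ
  obtain ⟨a', ha'⟩ := hx.2 e he ξ
  rw [hb] at ha
  have ha0 : a ≠ 0 := by
    rintro rfl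
    rw [zero_smul] at ha
    exact hξ ha
  have ha'0 : a' ≠ 0 := by
    rintro rfl
    rw [zero_smul] at ha'
    exact hξ ha'
  refine ⟨a'⁻¹ * a, mul_ne_zero (inv_ne_zero ha'0) ha0, ?_⟩
  rw [mul_smul, ← ha, ha', inv_smul_smul₀ ha'0]

/-- related points, moved to the sheet, have the same parameter -/
theorem same_par (hH : HForm n (q + r) m p H v)
    (hequi : ∀ (g : Γ) y (e : Chart n X), At e (p y) → ∀ ξ, v (g • y) e ξ = U g (v y e ξ))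
    (hpsm : ∀ (g : Γ) (y : E), p (g • y) = p y) {D : LeafDat q s k H} (C : PC D.γ D.b₀)
    {g g' : Γ} {z z' : E} (hz : NZ p v z) (hz' : NZ p v z') {x : H} (hx : OnL p v z x)
    (hR : Rel p v (U (g * g'⁻¹)) z z') {b₁ b₂ : Cm s} (hb₁ : b₁ ∈ ball D.b₀ C.r₁)
    (hb₂ : b₂ ∈ ball D.b₀ C.r₁) (h1 : Sh p v F D (g'⁻¹ • z) b₁) (h2 : Sh p v F D (g⁻¹ • z') b₂) :
    b₁ = b₂ := by
  obtain ⟨n1, o1⟩ := onL_smul hequi hpsm g'⁻¹ hz hx
  obtain ⟨n2, o2⟩ := onL_smul hequi hpsm g⁻¹ hz' (hR x hx)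
  have h3 : U g⁻¹ (U (g * g'⁻¹) x) = U g'⁻¹ x := by
    rw [← U_mul hequi hpsm _ _ hz hx, inv_mul_cancel_left]
  rw [h3] at o2
  obtain ⟨a₁, ha₁, e1⟩ := sh_line hH n1 o1 h1
  obtain ⟨a₂, ha₂, e2⟩ := sh_line hH n2 o2 h2
  refine C.inj hb₁ hb₂ (a := a₁⁻¹ * a₂) (mul_ne_zero (inv_ne_zero ha₁) ha₂) ?_
  rw [mul_smul, ← e2, e1, inv_smul_smul₀ ha₁]

variable [IsManifold 𝓘(ℂ, Cm n) ω X]

/-- **near identity elements commute with `κ`** -/
theorem comm_ev [T2Space X] [CompactSpace X] [ConnectedSpace X] [ConnectedSpace E]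
    (hS : Std w p F c K) (hT : TwoPot p F Θ J T) (hTe : TEqui n p F π T)
    (hJc : ∀ g x, J (π g x) = π g (J x))
    (hJP : ∀ y e, Reg (n := n) p F y → At e (p y) → ∃ G, JPot p F Θ y e G)
    (hfa : ∀ g ∈ K, AffTriv n p F π T g → g = 1)
    (hL : LeafE s p F m v U π Θ N 𝒢) {hs : ℕ → Γ}
    (hn : NearId p F m v U π Θ c N s 𝒢 hs) {κ : Γ} (hκ : c κ = 0)
    (hπ : ∀ᶠ l in atTop, π (hs l * κ) = π (κ * hs l)) {V : Set E} (hVo : IsOpen V)
    (hVne : V.Nonempty)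
    (hB : ∀ᶠ l in atTop, ∀ z ∈ V, ∀ z' ∈ V, NZ p v z → (∃ x, OnL p v z x) → NZ p v z' →
      F z ∈ RV n p F → F z' ∈ RV n p F → Rel p v (U (hs l)) z z' →
      T z' ((hs l * κ * (hs l)⁻¹) • z') = π (hs l) (T z (κ • z))) :
    ∀ᶠ l in atTop, hs l * κ = κ * hs l := by
  have hpsm : ∀ (g : Γ) (y : E), p (g • y) = p y := fun g y =>
    ((hS.gal.orb y (g • y)).2 ⟨g, rfl⟩).symm
  obtain ⟨B, hHB⟩ := hS.hol
  obtain ⟨P, hP⟩ : ∃ P : Cm q →L[ℂ] Cm k, ∀ x, P (N x) = x := by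
    obtain ⟨g, hg⟩ := LinearMap.exists_leftInverse_of_injective (N : Cm k →ₗ[ℂ] Cm q)
      (LinearMap.ker_eq_bot.2 hL.Ninj)
    exact ⟨LinearMap.toContinuousLinearMap g, fun x => LinearMap.congr_fun hg x⟩
  obtain ⟨hRo, hRd, hRc, hRcon, hRinv, -⟩ := sepStmt n q X w E Γ p F c K hS
  obtain ⟨M, hM, hMc⟩ := gen_conn hS hL.good hL.inv
  have hFc : Continuous F := hol_continuous hS.gal.cov hHB
  -- the point `a`
  obtain ⟨a, haV, haG, haR, haM⟩ : ∃ a, a ∈ V ∧ a ∈ 𝒢 ∧ F a ∈ RV n p F ∧ F a ∉ M := by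
    obtain ⟨a₁, ha₁V, ha₁G⟩ := (thin_dense hS.gal.cov hL.good).inter_open_nonempty V hVo hVne
    obtain ⟨e, b, F0, β, γ, τ, hC⟩ := hL.chart a₁ ha₁G
    have h1 : F '' (V ∩ 𝒢) ∈ 𝓝 (F a₁) := H35.S4.open_E hS.gal.cov hHB (lc_reg hS.gal.cov hC) _
      (inter_mem (hVo.mem_nhds ha₁V) (hL.good.isOpen.mem_nhds ha₁G))
    have h2 : IsMeagre (M ∪ (RV n p F)ᶜ) := by
      refine hM.union ?_
      show (RV n p F)ᶜᶜ ∈ residual _
      rw [compl_compl]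
      exact residual_of_dense_open hRo hRd
    obtain ⟨t, ht1, ht2⟩ := (dense_of_mem_residual h2).inter_nhds_nonempty h1
    obtain ⟨a, ⟨h3, h4⟩, rfl⟩ := ht2
    exact ⟨a, h3, h4, not_not.1 fun h => ht1 (Or.inr h), fun h => ht1 (Or.inl h)⟩
  have hκF : ∀ y, F (κ • y) = F y := fun y => by rw [hS.eqv, hκ, add_zero]
  obtain ⟨B₁, hB₁, B₂, hB₂, hTR⟩ := tr_conn hS.gal.cov hHB hL hP hJc hT hn (hMc _ haM haR)
    (a₁ := a) (a₂ := κ • a) ⟨rfl, haG⟩ ⟨hκF a, hL.inv κ a haG⟩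
  have hκc : (fun y : E => κ • y) ⁻¹' B₂ ∈ 𝓝 a := (hS.gal.cont κ).continuousAt hB₂
  have hO₁ : B₁ ∩ (fun y : E => κ • y) ⁻¹' B₂ ∩ (V ∩ 𝒢) ∈ 𝓝 a :=
    inter_mem (inter_mem hB₁ hκc) (inter_mem (hVo.mem_nhds haV) (hL.good.isOpen.mem_nhds haG))
  have hNZ : ∀ᶠ y in 𝓝 a, NZ p v y ∧ ∃ x, OnL p v y x := by
    obtain ⟨e, b, F0, β, γ, τ, hC⟩ := hL.chart a haG
    filter_upwards [lc_onL hS.gal.cov hL.form hC] with y hy
    exact ⟨hy.2.2.1, _, hy.2.2.2⟩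
  obtain ⟨O', hO', hO's, hex⟩ := tr_ex hS.gal.cov hL hP hn haG (inter_mem hO₁ hNZ)
  obtain ⟨e, b, F0, β, γ, τ, hC⟩ := hL.chart a haG
  obtain ⟨O'', hO''s, hO''o, haO''⟩ := _root_.mem_nhds_iff.1
    (H35.S4.open_E hS.gal.cov hHB (lc_reg hS.gal.cov hC) _ hO')
  filter_upwards [hπ, hB, hTR, hex] with l l1 l2 l3 l4
  set h := hs l with hh
  set a' : Γ := h * κ * h⁻¹ * κ⁻¹ with ha'
  have hadd := hS.lat.add
  have hinv := hS.lat.map_inv
  have hca' : c a' = 0 := by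
    rw [ha', hadd, hadd, hadd, hinv, hinv, hκ]
    simp
  have hπa' : π a' = 1 := by
    rw [ha', map_mul, map_mul, l1, map_mul, map_inv, map_inv, mul_inv_cancel_right, mul_inv_cancel]
  -- a regular value `t₁` with `t₁ + cb h` regular
  obtain ⟨t₁, ht₁R, ht₁O, ht₁R'⟩ : ∃ t₁, t₁ ∈ RV n p F ∧ t₁ ∈ O'' ∧ t₁ + cb c N P h ∈ RV n p F := by
    have h1 : IsOpen ((fun t => t + cb c N P h) ⁻¹' RV n p F) :=
      hRo.preimage (continuous_id.add continuous_const)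
    have h2 : Dense ((fun t => t + cb c N P h) ⁻¹' RV n p F) :=
      hRd.preimage (Homeomorph.addRight (cb c N P h)).isOpenMap
    have h3 := (hRd.inter_of_isOpen_left h2 hRo).inter_open_nonempty O'' hO''o ⟨_, haO''⟩
    obtain ⟨t₁, h4, h5, h6⟩ := h3
    exact ⟨t₁, h5, h4, h6⟩
  have key : AffTriv n p F π T a' := by
    refine aff_zero hS.gal hHB hS.eqv hRo hRc (fun t ht => (hRcon t ht).nonempty) hT hTe hJP hca'
      hπa' ht₁R' ?_
    have hsub : Tendsto (fun t => t - cb c N P h) (𝓝 (t₁ + cb c N P h)) (𝓝 t₁) := by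
      have : Tendsto (fun t => t - cb c N P h) (𝓝 (t₁ + cb c N P h))
          (𝓝 (t₁ + cb c N P h - cb c N P h)) :=
        (continuous_id.sub continuous_const).continuousAt
      rwa [add_sub_cancel_right] at this
    filter_upwards [hsub.eventually (hO''o.mem_nhds ht₁O), hsub.eventually (hRo.mem_nhds ht₁R)]
      with t h1 h2 y hyt hyR
    obtain ⟨z, hz, hzt⟩ := hO''s h1
    obtain ⟨z', hz', hFz', hRel⟩ := l4 z hz
    have hzR : F z ∈ RV n p F := by rw [hzt]; exact h2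
    have hFz't : F z' = F y := by rw [hFz', hzt, sub_add_cancel, hyt]
    have hz'R : F z' ∈ RV n p F := by rw [hFz't]; exact hyR
    obtain ⟨⟨⟨m1, m2⟩, m3, m4⟩, m5, m6⟩ := hO's hz
    obtain ⟨⟨⟨k1, k2⟩, k3, k4⟩, k5, -⟩ := hz'
    have e1 : T z' (κ • z') = π h (T z (κ • z)) := by
      refine l3 z m1 z' k1 (κ • z) m2 (κ • z') k2 (hκF z) hzR hFz' (hκF z') hz'R hRel ?_
      exact rel_kappa hL.equi hL.triv hpsm l1 m5 hRel
    have e2 := l2 z m3 z' k3 m5 m6 k5 hzR hz'R hRel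
    have e3 := hT.add z' (κ • z') ((h * κ * h⁻¹) • z') (hκF z').symm (by
      rw [hκF, hS.eqv, hadd, hadd, hinv, hκ]; simp) hz'R
    rw [e1, e2] at e3
    have e4 : T (κ • z') ((h * κ * h⁻¹) • z') = 0 := by simpa using e3
    have e5 : a' • (κ • z') = (h * κ * h⁻¹) • z' := by
      rw [ha', smul_smul, inv_mul_cancel_right]
    rw [disp_const hT hTe hS.eqv hca' hπa' (y := y) (y' := κ • z') (by rw [hκF, hFz't]) hyR, e5, e4]
  have h1 := hfa a' ((hS.ker _).2 hca') key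
  rw [ha'] at h1
  calc h * κ = (h * κ * h⁻¹ * κ⁻¹) * (κ * h) := by group
    _ = κ * h := by rw [h1, one_mul]

end

end Vale.Agent.P284.H988.T
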