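import Vale.Agent.P284.H650.T.Spec
import Vale.Agent.P284.H224.Top
import Vale.Agent.P284.H494.PerL
import Vale.Agent.P284.H988.T.Conn

/-!
# P284 (helper988), T3⁺, (T3): nothing is separated by thin sets and by the fibres over the critical
values
-/

open scoped Manifold ContDiff Topology InnerProductSpace ComplexConjugate
open Filter Set Metric

noncomputable section

namespace Vale.Agent.P284.H988.T

open Vale.Agent.P272.K Vale.Agent.P284.H894 Vale.Agent.P284.H894.G Vale.Agent.P284.H894.V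
  Vale.Agent.P284.H894.W Vale.Agent.P284.H573 Vale.Agent.P284.H213.Grp Vale.Agent.P284.H395
  Vale.Agent.P284.H378 Vale.Agent.P284.H478.G Vale.Agent.P284.H988.N Vale.Agent.P284.H10
  Vale.Agent.P284.H619 Vale.Agent.P284.H494

/-- from local to global -/
theorem glob_of_loc {Y : Type*} [TopologicalSpace Y] {G : Set Y}
    (h : ∀ y, ∀ O ∈ 𝓝 y, ∃ U : Set Y, IsOpen U ∧ y ∈ U ∧ U ⊆ O ∧ IsPreconnected (U ∩ G) ∧
      (U ∩ G).Nonempty) {O : Set Y} (hO : IsOpen O) (hc : IsPreconnected O) :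
    IsPreconnected (O ∩ G) ∧ O ⊆ closure (O ∩ G) := by
  have hcl : O ⊆ closure (O ∩ G) := by
    intro y hy
    rw [_root_.mem_closure_iff]
    intro V hV hyV
    obtain ⟨U, -, -, h2, -, z, hz⟩ := h y (O ∩ V) (inter_mem (hO.mem_nhds hy) (hV.mem_nhds hyV))
    exact ⟨z, (h2 hz.1).2, (h2 hz.1).1, hz.2⟩
  refine ⟨?_, hcl⟩
  rw [isPreconnected_iff_subset_of_disjoint]
  intro A B hA hB hsub hdisj
  by_contra hcon
  push Not at hcon
  obtain ⟨hnA, hnB⟩ := hcon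
  obtain ⟨a, haO, haA⟩ := not_subset.1 hnB
  obtain ⟨b, hbO, hbB⟩ := not_subset.1 hnA
  have haA' : a ∈ A := (hsub haO).resolve_right haA
  have hbB' : b ∈ B := (hsub hbO).resolve_left hbB
  have hAB : ∀ z ∈ O ∩ G, z ∈ A → z ∈ B → False := by
    intro z hz h1 h2
    have : z ∈ O ∩ G ∩ (A ∩ B) := ⟨hz, h1, h2⟩
    rw [hdisj] at this
    exact this
  set P : Set Y := {y | ∃ U : Set Y, IsOpen U ∧ y ∈ U ∧ U ⊆ O ∧ U ∩ G ⊆ A} with hP
  set Q : Set Y := {y | ∃ U : Set Y, IsOpen U ∧ y ∈ U ∧ U ⊆ O ∧ U ∩ G ⊆ B} with hQ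
  have hPo : IsOpen P := by
    refine isOpen_iff_mem_nhds.2 ?_
    rintro y ⟨U, h1, h2, h3, h4⟩
    filter_upwards [h1.mem_nhds h2] with y' hy'
    exact ⟨U, h1, hy', h3, h4⟩
  have hQo : IsOpen Q := by
    refine isOpen_iff_mem_nhds.2 ?_
    rintro y ⟨U, h1, h2, h3, h4⟩
    filter_upwards [h1.mem_nhds h2] with y' hy'
    exact ⟨U, h1, hy', h3, h4⟩
  have key : ∀ y ∈ O, ∃ U : Set Y, IsOpen U ∧ y ∈ U ∧ U ⊆ O ∧ (U ∩ G ⊆ A ∨ U ∩ G ⊆ B) := by
    intro y hy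
    obtain ⟨U, h1, h2, h3, h4, h5⟩ := h y O (hO.mem_nhds hy)
    refine ⟨U, h1, h2, h3, ?_⟩
    refine (isPreconnected_iff_subset_of_disjoint.1 h4) A B hA hB
      (fun z hz => hsub ⟨h3 hz.1, hz.2⟩) ?_
    rw [eq_empty_iff_forall_notMem]
    rintro z ⟨hz1, hz2⟩
    exact hAB z ⟨h3 hz1.1, hz1.2⟩ hz2.1 hz2.2
  have hcov : O ⊆ P ∪ Q := by
    intro y hy
    obtain ⟨U, h1, h2, h3, h4 | h4⟩ := key y hy
    · exact Or.inl ⟨U, h1, h2, h3, h4⟩
    · exact Or.inr ⟨U, h1, h2, h3, h4⟩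
  have hPQ : O ∩ (P ∩ Q) = ∅ := by
    rw [eq_empty_iff_forall_notMem]
    rintro y ⟨hyO, ⟨U, h1, h2, h3, h4⟩, V, g1, g2, g3, g4⟩
    obtain ⟨U', -, -, k3, -, z, hz⟩ := h y (U ∩ V) (inter_mem (h1.mem_nhds h2) (g1.mem_nhds g2))
    have hz1 := k3 hz.1
    exact hAB z ⟨h3 hz1.1, hz.2⟩ (h4 ⟨hz1.1, hz.2⟩) (g4 ⟨hz1.2, hz.2⟩)
  rcases (isPreconnected_iff_subset_of_disjoint.1 hc) P Q hPo hQo hcov hPQ with h1 | h1
  · obtain ⟨U, -, g2, g3, g4⟩ := h1 hbO.1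
    exact hAB b hbO (g4 ⟨g2, hbO.2⟩) hbB'
  · obtain ⟨U, -, g2, g3, g4⟩ := h1 haO.1
    exact hAB a haO haA' (g4 ⟨g2, haO.2⟩)

section
variable {n q : ℕ} {X : Type} [TopologicalSpace X] [ChartedSpace (Cm n) X]
  {E : Type} [TopologicalSpace E] {p : E → X}

/-- Local connectedness off a thin set. -/
theorem loc_conn0 [ConnectedSpace E] (hp : IsCoveringMap p) {𝒢 : Set E}
    (h𝒢 : Thin n p 𝒢) (y : E) {O : Set E} (hO : O ∈ 𝓝 y) :
    ∃ U : Set E, IsOpen U ∧ y ∈ U ∧ U ⊆ O ∧ IsPreconnected (U ∩ 𝒢) ∧ (U ∩ 𝒢).Nonempty := by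
  have he : At (chartAt (Cm n) (p y) : Chart n X) (p y) :=
    ⟨chart_mem_atlas _ _, mem_chart_source _ _⟩
  set e : Chart n X := chartAt (Cm n) (p y) with hee
  obtain ⟨j, hj, hjf, hj𝒢⟩ := h𝒢.thin y e he
  have hjan := hj.eventually_analyticAt
  have hjn : ∀ᶠ z in 𝓝 (e (p y)), AnalyticAt ℂ j z ∧ ∃ᶠ z' in 𝓝 z, j z' ≠ 0 := by
    have h1 : ¬ ∀ᶠ z in 𝓝 (e (p y)), j z = 0 := by
      intro h; exact hjf (h.mono fun z hz => not_not.2 hz)
    obtain ⟨r, hr, hb⟩ := Metric.eventually_nhds_iff_ball.1 hjan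
    filter_upwards [ball_mem_nhds _ hr] with z hz
    refine ⟨hb z hz, fun h2 => h1 ?_⟩
    have h3 : AnalyticOnNhd ℂ j (ball (e (p y)) r) := fun z hz => hb z hz
    have h4 := h3.eqOn_of_preconnected_of_eventuallyEq (g := fun _ => 0) analyticOnNhd_const
      (convex_ball _ _).isPreconnected hz (h2.mono fun z hz => not_not.1 hz)
    filter_upwards [ball_mem_nhds _ hr] with z hz
    exact h4 hz
  rw [← ev_iff hp he] at hjn
  obtain ⟨ε, hε, hyε, hsub, hcv⟩ := Vale.Agent.P284.H494.exists_ch_at hp he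
    (inter_mem hO (hjn.and hj𝒢))
  have hsrc : ∀ z ∈ ε.target, ε.symm z ∈ O ∧ (AnalyticAt ℂ j z ∧ ∃ᶠ z' in 𝓝 z, j z' ≠ 0) ∧
      (j z ≠ 0 → ε.symm z ∈ 𝒢) := by
    intro z hz
    obtain ⟨h3, h4, h5⟩ := hsub (ε.map_target hz)
    have h6 : e (p (ε.symm z)) = z := by
      rw [← hε.eq _ (ε.map_target hz), ε.right_inv hz]
    rw [h6] at h4 h5
    exact ⟨h3, h4, h5⟩
  set S' : Set (Cm n) := {z | ¬ (ε.symm z ∈ 𝒢)} with hS'
  have h4 : ε.source ∩ 𝒢 = ε.symm '' (ε.target \ S') := by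
    ext y'
    constructor
    · rintro ⟨h5, h6⟩
      refine ⟨ε y', ⟨ε.map_source h5, ?_⟩, ε.left_inv h5⟩
      intro h7
      apply h7
      rw [ε.left_inv h5]
      exact h6
    · rintro ⟨z, ⟨h5, h6⟩, rfl⟩
      exact ⟨ε.map_target h5, not_not.1 h6⟩
  refine ⟨ε.source, ε.open_source, hyε, fun y' hy' => (hsub hy').1, ?_⟩
  rcases Nat.eq_zero_or_pos n with hn | hn
  · subst hn
    have h6 : y ∈ ε.source ∩ 𝒢 := by
      refine ⟨hyε, ?_⟩
      have h7 := (hsrc _ (ε.map_source hyε))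
      rw [ε.left_inv hyε] at h7
      refine h7.2.2 ?_
      obtain ⟨z', hz'⟩ := h7.2.1.2.exists
      rwa [Subsingleton.elim z' (ε y)] at hz'
    refine ⟨Set.Subsingleton.isPreconnected ?_, ⟨y, h6⟩⟩
    rintro a ha b hb
    have : ε a = ε b := Subsingleton.elim _ _
    exact ε.injOn ha.1 hb.1 this
  have hc2 : Cov (n - 1) {z ∈ ε.target | j z = 0} := by
    refine cov_zero (by simp; omega) ε.open_target (fun z hz =>
      (hsrc z hz).2.1.1.differentiableAt.differentiableWithinAt) fun z hz h => ?_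
    exact (hsrc z hz).2.1.2 (h.mono fun z' hz' => not_not.2 hz')
  have hcS' : Cov (n - 1) (S' ∩ ε.target) := by
    refine hc2.mono ?_
    rintro z ⟨hz, hzt⟩
    refine ⟨hzt, ?_⟩
    by_contra hcon
    exact hz ((hsrc z hzt).2.2 hcon)
  constructor
  · rw [h4]
    exact (preconn_diff hcS' (by simp; omega) ε.open_target hcv).image _
      (ε.continuousOn_symm.mono sdiff_subset)
  · rw [h4]
    exact (nonempty_diff hcS' (by simp; omega) ε.open_target ⟨_, ε.map_source hyε⟩).image _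

end

theorem rv_eq {n q : ℕ} {X E : Type} [TopologicalSpace X] [ChartedSpace (Cm n) X]
    [TopologicalSpace E] (p : E → X) (F : E → Cm q) : RV n p F = (critV n p F)ᶜ := by
  ext t
  constructor
  · rintro h ⟨y, hy, rfl⟩
    exact hy (h y rfl)
  · intro h y hy
    by_contra hc
    exact h ⟨y, hc, hy⟩

/-- **(T3)** -/
theorem sepStmt : H650.T.SepStmt := by
  intro n q X _ _ _ _ _ _ w E Γ _ _ _ _ p F c K hS
  have hP : Per p w F c := ⟨hS.hol, hS.eqv, hS.lat.disc⟩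
  obtain ⟨h1, h2, h3, h4, -, -, h7⟩ := H224.rvStmt n q X w E Γ p hS.gal F c hP hS.reg
  refine ⟨h1, h2, h3, h7 ?_, ?_, ?_⟩
  · obtain ⟨T, hT, hT0, hT1⟩ := hS.conn
    have h5 : ∃ t, t ∉ T := by
      by_contra hcon
      push Not at hcon
      have : T = univ := eq_univ_of_forall hcon
      rw [this, interior_univ] at hT0
      exact univ_nonempty.ne_empty hT0
    obtain ⟨t, ht⟩ := h5
    exact ⟨t, (hT1 t ht).2, (hT1 t ht).1⟩
  · intro g t ht y hy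
    have h5 : F (g⁻¹ • y) = t := by
      have h6 := hS.eqv g (g⁻¹ • y)
      rw [smul_inv_smul, hy] at h6
      exact (add_right_cancel h6).symm
    exact (hP.reg_smul_iff hS.gal g⁻¹ y).1 (ht _ h5)
  · intro 𝒢 h𝒢 O hO hOc
    rw [inter_assoc]
    refine glob_of_loc (fun y O' hO' => ?_) hO hOc
    obtain ⟨B, hB⟩ := hS.hol
    rcases Nat.eq_zero_or_pos q with hq | hq
    · subst hq
      have h5 : F ⁻¹' RV n p F = univ := by
        obtain ⟨t, ht⟩ := h2.nonempty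
        refine eq_univ_of_forall fun y => ?_
        show F y ∈ RV n p F
        rwa [Subsingleton.elim (F y) t]
      rw [h5, inter_univ]
      exact loc_conn0 hS.gal.cov h𝒢 y hO'
    · have h5 := loc_conn hq hS.gal.cov hB hS.reg (T := (RV n p F)ᶜ) (h4 hq) h𝒢 y hO'
      rwa [compl_compl] at h5

end Vale.Agent.P284.H988.T
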