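import Vale.Agent.P284.H988.T.Rel
import Vale.Agent.P284.H988.T.Sep
import Vale.Agent.P284.H221.GFS
import Vale.Agent.P284.H573.DK.Bas
import Vale.Agent.P284.H885.DK4

/-!
# P284 (helper988), T3⁺: the good part of the generic fibres is connected; the identity theorem for the
displacements of the elements acting trivially on `W`
-/

open scoped Manifold ContDiff Topology InnerProductSpace ComplexConjugate
open Filter Set Metric

noncomputable section

set_option linter.unusedSectionVars false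
set_option linter.style.haveILetI false

namespace Vale.Agent.P284.H988.T

open Vale.Agent.P272.K Vale.Agent.P284.H894.G Vale.Agent.P284.H894.V Vale.Agent.P284.H894.W
  Vale.Agent.P284.H213.Grp Vale.Agent.P284.H619 Vale.Agent.P284.H10 Vale.Agent.P284.H573
  Vale.Agent.P284.H625 Vale.Agent.P284.H378 Vale.Agent.P284.H212 Vale.Agent.P284.H395
  Vale.Agent.P284.H478.G Vale.Agent.P284.H494
open Vale.Agent.P284.H573.GG (rel_iff lc_onL)
open Vale.Agent.P284.H650.T (TwoPot JPot TEqui AffTriv JDat Std IsJ)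
open Vale.Agent.P284.H885.DK (HCh hch_of fibCS fib_manifold thin_fib)
open Vale.Agent.P281.H64.Thin (IsThinSet)

section
variable {n q : ℕ} {X : Type} [TopologicalSpace X] [ChartedSpace (Cm n) X]
  [IsManifold 𝓘(ℂ, Cm n) ω X] {E : Type} [TopologicalSpace E] [ConnectedSpace E] {Γ : Type}
  [Group Γ] [MulAction Γ E] {p : E → X} {F : E → Cm q}
  {w : Chart n X → Cm n → Matrix (Fin n) (Fin n) ℂ} {B : ℝ} {𝒢 : Set E}

/-- the complement of a thin set in a connected fibre -/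
theorem fib_conn [T2Space X] (hp : IsCoveringMap p) (hF : HolB p w F B) (h𝒢 : IsOpen 𝒢) {t : Cm q}
    (hconn : IsConnected (F ⁻¹' {t})) (hreg : ∀ y, F y = t → Reg (n := n) p F y)
    (hth : ∀ (y : E) (e : Chart n X), F y = t → At e (p y) → ∃ h : Cm n → ℂ,
      AnalyticAt ℂ h (e (p y)) ∧ (∃ᶠ y' in 𝓝 y, F y' = t ∧ h (e (p y')) ≠ 0) ∧
      ∀ᶠ y' in 𝓝 y, h (e (p y')) ≠ 0 → y' ∈ 𝒢) : IsPreconnected (F ⁻¹' {t} ∩ 𝒢) := by
  obtain ⟨y₁, hy₁⟩ := hconn.nonempty
  have hqn : q ≤ n := by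
    obtain ⟨e₁, ε₁, hε₁, hyε₁, -, -⟩ := exists_ch (n := n) hp y₁ univ_mem
    exact N_le_n ((hε₁.reg_iff hp hF hyε₁).1 (hreg y₁ hy₁))
  obtain ⟨d, hd⟩ := Nat.exists_eq_add_of_le hqn
  have h : HCh d n p F t := hch_of hd hp hF hreg
  letI := fibCS h
  haveI : IsManifold 𝓘(ℂ, Cm d) ω (F ⁻¹' {t}) := fib_manifold h
  haveI : T2Space E := H35.S4.t2_of_cov hp
  haveI : ConnectedSpace (F ⁻¹' {t}) := isConnected_iff_connectedSpace.1 hconn
  set G : Set (F ⁻¹' {t}) := {x | (x : E) ∈ 𝒢} with hGdef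
  have hT : IsThinSet (Cm d) Gᶜ := by
    refine ⟨(h𝒢.preimage continuous_subtype_val).isClosed_compl, fun y => ?_⟩
    obtain ⟨h', h1, h2, h3⟩ := thin_fib h hth y
    have h1' : H573.DK.Hol d h' y := H573.DK.hol_of_anM h1
    refine ⟨h', h1', not_eventually.2 h2, ?_⟩
    filter_upwards [h3] with z hz hzG
    by_contra hcon
    exact hzG (hz hcon)
  have h5 := H573.DK.pre_open isOpen_univ isPreconnected_univ hT
  have h6 : F ⁻¹' {t} ∩ 𝒢 = Subtype.val '' ((univ : Set (F ⁻¹' {t})) \ Gᶜ) := by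
    ext y
    constructor
    · rintro ⟨h7, h8⟩
      exact ⟨⟨y, h7⟩, ⟨mem_univ _, not_not.2 h8⟩, rfl⟩
    · rintro ⟨x, ⟨-, h8⟩, rfl⟩
      exact ⟨x.2, not_not.1 h8⟩
  rw [h6]
  exact h5.image _ continuous_subtype_val.continuousOn

/-- for generic `t` the good part of the fibre over `t` is connected -/
theorem gen_conn [T2Space X] [CompactSpace X] [ConnectedSpace X] {c : Γ → Cm q} {K : Subgroup Γ}
    (hS : Std w p F c K) (h𝒢 : Thin n p 𝒢) (hinv : ∀ (g : Γ), ∀ y ∈ 𝒢, g • y ∈ 𝒢) :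
    ∃ M : Set (Cm q), IsMeagre M ∧ ∀ t ∉ M, t ∈ RV n p F → IsPreconnected (F ⁻¹' {t} ∩ 𝒢) := by
  obtain ⟨M, hM, h⟩ := H221.gfStmt n q X E Γ p hS.gal w F c hS.hol hS.eqv hS.lat.disc 𝒢 h𝒢 hinv
  obtain ⟨B, hB⟩ := hS.hol
  refine ⟨M, hM, fun t ht htR => ?_⟩
  exact fib_conn hS.gal.cov hB h𝒢.isOpen
    ((sepStmt n q X w E Γ p F c K hS).2.2.2.1 t htR) htR (h t ht htR)

end

/-! ### the identity theorem -/

/-- `J` as a real linear map -/
def Jr {W : Type} [NormedAddCommGroup W] [InnerProductSpace ℂ W] (J : W →SL[starRingEnd ℂ] W) :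
    W →L[ℝ] W where
  toFun := J
  map_add' := map_add J
  map_smul' r x := by
    have h1 : (r : ℂ) • x = r • x := by
      rw [← Complex.coe_smul]
    rw [← h1, map_smulₛₗ, Complex.conj_ofReal, RingHom.id_apply, Complex.coe_smul]
  cont := J.continuous

/-- the identity theorem for `Φ + J Φ` -/
theorem rj_zero {n : ℕ} {W : Type} [NormedAddCommGroup W] [InnerProductSpace ℂ W]
    [CompleteSpace W] {J : W →SL[starRingEnd ℂ] W} {Φ : Cm n → W} {O : Set (Cm n)}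
    (hO : IsPreconnected O) (hΦ : ∀ z ∈ O, AnalyticAt ℂ Φ z) {z₀ : Cm n} (hz₀ : z₀ ∈ O)
    (h : ∀ᶠ z in 𝓝 z₀, Φ z + J (Φ z) = 0) : ∀ z ∈ O, Φ z + J (Φ z) = 0 := by
  have h1 : AnalyticOnNhd ℝ (fun z => Φ z + Jr J (Φ z)) O := fun z hz =>
    ((hΦ z hz).restrictScalars (𝕜 := ℝ)).add
      (((Jr J).analyticAt _).comp ((hΦ z hz).restrictScalars (𝕜 := ℝ)))
  exact fun z hz => h1.eqOn_zero_of_preconnected_of_eventuallyEq_zero hO hz₀ h hz

end Vale.Agent.P284.H988.T
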