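import Vale.Agent.P284.H988.T.Comm
import Vale.Agent.P284.H366.T.OO
import Vale.Agent.P284.H619.T.Th
import Vale.Agent.P284.H988.N.LF

/-!
# P284 (helper988), T3⁺, (T5): local finiteness of the translates of a clopen part of the sheet
-/

open scoped Manifold ContDiff Topology InnerProductSpace ComplexConjugate
open Filter Set Metric

noncomputable section

set_option linter.unusedSectionVars false

namespace Vale.Agent.P284.H988.T

open Vale.Agent.P272.K Vale.Agent.P284.H894.G Vale.Agent.P284.H894.V Vale.Agent.P284.H894.W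
  Vale.Agent.P284.H213.Grp Vale.Agent.P284.H619 Vale.Agent.P284.H10 Vale.Agent.P284.H573
  Vale.Agent.P284.H625 Vale.Agent.P284.H378 Vale.Agent.P284.H212 Vale.Agent.P284.H395
  Vale.Agent.P284.H478.G Vale.Agent.P284.H494
open Vale.Agent.P284.H650.T (TwoPot JPot TEqui AffTriv JDat Std IsJ DK1 IsLD)
open Vale.Agent.P284.H573.GG (Rel rel_iff lc_onL)

section
variable {n q r k s m : ℕ} {X E Γ W H : Type} [TopologicalSpace X] [ChartedSpace (Cm n) X]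
  [TopologicalSpace E] [Group Γ] [MulAction Γ E]
  [NormedAddCommGroup W] [InnerProductSpace ℂ W] [CompleteSpace W] [NormedAddCommGroup H]
  [InnerProductSpace ℂ H] [CompleteSpace H] {p : E → X} {F : E → Cm q}
  {w : Chart n X → Cm n → Matrix (Fin n) (Fin n) ℂ}
  {v : E → Chart n X → (Fin (q + r) → Cm n) → H}
  {U : Γ → (H →ₗᵢ[ℂ] H)} {π : Γ →* (W ≃ₗᵢ[ℂ] W)} {Θ : E → Chart n X → (Cm n →L[ℂ] W)}
  {N : Cm k →L[ℂ] Cm q} {c : Γ → Cm q} {𝒢 : Set E} {T : E → E → W}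
  {J : W →SL[starRingEnd ℂ] W} {K : Subgroup Γ}
  [IsManifold 𝓘(ℂ, Cm n) ω X]

/-- **local finiteness** -/
theorem lfo_fin [T2Space X] [CompactSpace X] [ConnectedSpace X] [ConnectedSpace E]
    (hS : Std w p F c K) (hcen : ∀ g, (∀ h ∈ K, g * h = h * g) → ∀ h, g * h = h * g)
    (hT : TwoPot p F Θ J T) (hTe : TEqui n p F π T)
    (hJc : ∀ g x, J (π g x) = π g (J x))
    (hJP : ∀ y e, Reg (n := n) p F y → At e (p y) → ∃ G, JPot p F Θ y e G)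
    (hπ : ∀ g, (∀ h ∈ K, g * h = h * g) → π g = 1)
    (hfa : ∀ g ∈ K, AffTriv n p F π T g → g = 1)
    (hL : LeafE s p F m v U π Θ N 𝒢) (hDK : DK1 p F c m v U π Θ N s 𝒢)
    (D : LeafDat q s k H) (hDN : ∀ x, D.N x = N) (S₀ : Subgroup Γ) (hS₀ : IsSub c K N S₀) :
    ∃ r₁ > 0, ∀ r₀, 0 < r₀ → r₀ ≤ r₁ → ∀ O : Set E, ClPart p v F D (3 * r₀) O →
      (∀ y ∈ O, ∀ y' ∈ O, F y ∈ RV n p F → F y' ∈ RV n p F → ∀ b ∈ ball D.b₀ (3 * r₀),
        Sh p v F D y b → Sh p v F D y' b → ∀ κ : Γ, c κ = 0 → T y (κ • y) = T y' (κ • y')) →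
      ∀ K₀ : Set E, IsCompact K₀ → (∀ y ∈ K₀, NZ p v y) →
        {a : Γ ⧸ S₀ | ∃ g : Γ, (g : Γ ⧸ S₀) = a ∧ ∃ y ∈ K₀, g⁻¹ • y ∈ O ∧
          ∃ b ∈ ball D.b₀ r₀, Sh p v F D (g⁻¹ • y) b}.Finite := by
  obtain ⟨r₂, hr₂, hni⟩ := Vale.Agent.P284.H212.niStmt n q r k s m X E Γ p hS.gal w F c hS.hol
    hS.eqv W H π Θ v U N 𝒢 hL D hDN
  obtain ⟨C₀, -⟩ := H212.exists_pc D.γan D.imm one_pos
  obtain ⟨R₁, hR₁, htan⟩ := Metric.eventually_nhds_iff_ball.1 D.tan.eventually_analyticAt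
  have hC₀ := C₀.r₁_pos
  refine ⟨min r₂ (min C₀.r₁ R₁ / 3), by positivity, fun r₀ hr₀ hr₀le O hO hPO K₀ hK₀ hNZ => ?_⟩
  have hr₀2 : r₀ ≤ r₂ := hr₀le.trans (min_le_left _ _)
  have h3 : 3 * r₀ ≤ min C₀.r₁ R₁ := by
    have := hr₀le.trans (min_le_right _ _)
    linarith
  have h3C : ball D.b₀ (3 * r₀) ⊆ ball D.b₀ C₀.r₁ := ball_subset_ball (h3.trans (min_le_left _ _))
  have hγ₀ : ∀ b ∈ ball D.b₀ (3 * r₀), AnalyticAt ℂ D.γ b ∧ AnalyticAt ℂ D.t b ∧ ImmAt D.γ b := by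
    intro b hb
    have hb1 : b ∈ ball D.b₀ C₀.r₁ := h3C hb
    exact ⟨C₀.γan b (ball_subset_ball C₀.r₁_le hb1),
      htan b (ball_subset_ball (h3.trans (min_le_right _ _)) hb), C₀.immAt hb1⟩
  have hpg : ∀ (g : Γ) (y : E), p (g • y) = p y := fun g y =>
    ((hS.gal.orb y (g • y)).2 ⟨g, rfl⟩).symm
  have hnzs : ∀ (g : Γ) y, NZ p v y → NZ p v (g • y) := fun g y hy =>
    H335.nz_proj hL.form (hpg g y).symm hy
  obtain ⟨B, hB⟩ := hS.hol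
  obtain ⟨hRo, hRd, hRc, hRcon, hRinv, -⟩ := sepStmt n q X w E Γ p F c K hS
  by_contra hinf
  have hinf' := Set.Infinite.natEmbedding _ hinf
  have : FirstCountableTopology E := firstCountable_E (n := n) hS.gal.cov
  choose g hg y hy hyO b hb hSh using fun i => (hinf' i).2
  obtain ⟨y₀, hy₀, θ, hθ, hyθ⟩ := hK₀.tendsto_subseq hy
  obtain ⟨σ₁, hσ₁, V, hVo, hVc, hy₀V, hVnz, hVs⟩ := unif_nbhd hS.gal hL.form hL.equi hB hS.eqv hDN
    (thin_dense hS.gal.cov hL.good) (fun y hy => by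
      obtain ⟨e', b', F0, β, γ, τ, hC⟩ := hL.chart y hy
      exact ⟨_, (lc_onL hS.gal.cov hL.form hC).self_of_nhds.2.2.2⟩) hr₀ hγ₀ (g ∘ θ) hyθ
      (hNZ _ hy₀) (b := b ∘ θ) (fun i => hb _) (fun i => hSh _)
  obtain ⟨σ₂, hσ₂, hmain⟩ := hni ((g ∘ θ) ∘ σ₁) ((y ∘ θ) ∘ σ₁) y₀ ((b ∘ θ) ∘ σ₁)
    (hyθ.comp hσ₁.tendsto_atTop) (hNZ _ hy₀) (fun i => ball_subset_ball hr₀2 (hb _))
    (fun i => hSh _)
  set G : ℕ → Γ := fun i => g (θ (σ₁ (σ₂ i))) with hG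
  have hGO : ∃ i₀, ∀ i ≥ i₀, ∀ y ∈ V, (G i)⁻¹ • y ∈ O := by
    have h1 : Tendsto (fun i => y (θ (σ₁ (σ₂ i)))) atTop (𝓝 y₀) :=
      hyθ.comp (hσ₁.tendsto_atTop.comp hσ₂.tendsto_atTop)
    obtain ⟨i₀, hi₀⟩ := eventually_atTop.1 (h1.eventually (hVo.mem_nhds hy₀V))
    refine ⟨i₀, fun i hi => ?_⟩
    exact clp_sub hS.gal hO hnzs hVc hVnz (fun y hy => hVs (σ₂ i) y hy) (hi₀ i hi) (hyO _)
  obtain ⟨i₀, hi₀⟩ := hGO
  set h : ℕ → ℕ → Γ := fun i j => G i * (G j)⁻¹ with hh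
  have hadd := hS.lat.add
  have hinv := hS.lat.map_inv
  have hc1 : c 1 = 0 := hS.lat.map_one
  -- eventually the elements commute with every element of `K`
  have hcomm : ∀ κ ∈ K, ∃ j₀, ∀ i ≥ j₀, ∀ j ≥ j₀, h i j * κ = κ * h i j := by
    intro κ hκ
    by_contra hcon
    push Not at hcon
    choose i hi j hj hne' using hcon
    set hs : ℕ → Γ := fun l => h (i l) (j l) with hhs
    have hcκ : c κ = 0 := (hS.ker κ).1 hκ
    have hev : ∀ (P : ℕ → ℕ → Prop), (∃ j₀, ∀ i ≥ j₀, ∀ j ≥ j₀, P i j) →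
        ∀ᶠ l in atTop, P (i l) (j l) := by
      rintro P ⟨j₀, hj₀⟩
      filter_upwards [eventually_ge_atTop j₀] with l hl
      exact hj₀ _ (hl.trans (hi l)) _ (hl.trans (hj l))
    have n1 : NearId p F m v U π Θ c N s 𝒢 hs := by
      intro z hz e' b' F' β' γ' τ' hL'
      obtain ⟨ρ₁, hρ₁, h1⟩ := hmain z hz e' b' F' β' γ' τ' hL' 1 hc1
      refine ⟨ρ₁, hρ₁, fun ε hε => ?_⟩
      have := hev _ (h1 ε hε)
      filter_upwards [this] with l hl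
      simpa using hl
    have n2 : NearId p F m v U π Θ c N s 𝒢 (fun l => κ * hs l * κ⁻¹) := by
      intro z hz e' b' F' β' γ' τ' hL'
      obtain ⟨ρ₂, hρ₂, h2⟩ := hmain z hz e' b' F' β' γ' τ' hL' κ hcκ
      exact ⟨ρ₂, hρ₂, fun ε hε => hev _ (h2 ε hε)⟩
    have n3 := NearId.inv_mul hS.gal.cov hL.equi hpg hadd n1 n2 (fun j => by
      rw [hadd, hadd, hinv, hcκ]; simp)
    have n4 := hDK _ (fun j => by
      rw [hadd, hadd, hadd, hinv, hinv, hcκ]; simp) n3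
    have n5 : ∀ᶠ l in atTop, π (hs l * κ) = π (κ * hs l) := by
      filter_upwards [n4] with l hl
      have h5 : κ * hs l = (hs l * ((hs l)⁻¹ * (κ * hs l * κ⁻¹))) * κ := by group
      have h6 : π (κ * hs l) = π (hs l) * π ((hs l)⁻¹ * (κ * hs l * κ⁻¹)) * π κ := by
        rw [← map_mul π, ← map_mul π, ← h5]
      rw [h6, hl, mul_one, ← map_mul π]
    have hcom := comm_ev hS hT hTe hJc hJP hfa hL n1 hcκ n5 hVo ⟨y₀, hy₀V⟩ ?_
    · obtain ⟨l, hl⟩ := hcom.exists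
      exact hne' l hl
    · have hl₀ := hev (fun i j => i₀ ≤ i ∧ i₀ ≤ j) ⟨i₀, fun i hi j hj => ⟨hi, hj⟩⟩
      filter_upwards [hl₀] with l hl z hz z' hz' nz ox nz' hzR hz'R hRel
      obtain ⟨x, hx⟩ := ox
      set gi := G (i l) with hgi
      set gj := G (j l) with hgj
      have hsl : hs l = gi * gj⁻¹ := rfl
      rw [hsl] at hRel ⊢
      obtain ⟨b₁, hb₁, hs₁⟩ := hVs (σ₂ (j l)) z hz
      obtain ⟨b₂, hb₂, hs₂⟩ := hVs (σ₂ (i l)) z' hz'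
      have hbb : b₁ = b₂ := same_par hL.form hL.equi hpg C₀ nz nz' hx hRel (h3C hb₁) (h3C hb₂)
        hs₁ hs₂
      subst hbb
      have hF1 : F (gj⁻¹ • z) ∈ RV n p F := by rw [hS.eqv]; exact hRinv _ _ hzR
      have hF2 : F (gi⁻¹ • z') ∈ RV n p F := by rw [hS.eqv]; exact hRinv _ _ hz'R
      have hκ₀ : c (gj⁻¹ * κ * gj) = 0 := by
        rw [hadd, hadd, hinv, hcκ]; simp
      have key := hPO _ (hi₀ _ hl.2 z hz) _ (hi₀ _ hl.1 z' hz') hF1 hF2 b₁ hb₁ hs₁ hs₂ _ hκ₀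
      have e1 : (gj⁻¹ * κ * gj) • gj⁻¹ • z = gj⁻¹ • κ • z := by
        rw [smul_smul, smul_smul, mul_inv_cancel_right]
      have e2 : (gj⁻¹ * κ * gj) • gi⁻¹ • z' =
          gi⁻¹ • (gi * gj⁻¹ * κ * (gi * gj⁻¹)⁻¹) • z' := by
        rw [smul_smul, smul_smul]
        congr 1
        group
      have hFz : F z = F (κ • z) := by rw [hS.eqv, hcκ, add_zero]
      have hFz' : F z' = F ((gi * gj⁻¹ * κ * (gi * gj⁻¹)⁻¹) • z') := by
        rw [hS.eqv, hadd, hadd, hinv, hcκ]; simp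
      rw [← hgj, ← hgi, e1, e2, hTe _ _ _ hFz hzR, hTe _ _ _ hFz' hz'R] at key
      have e3 := congrArg (fun x => π gi x) key
      have e4 : ∀ x : W, π gi (π gi⁻¹ x) = x := by
        intro x
        rw [map_inv]
        exact (π gi).apply_symm_apply x
      rw [e4] at e3
      rw [← e3, map_mul]
      rfl
  -- finitely many generators
  obtain ⟨j₀, hj₀⟩ : ∃ j₀, ∀ i ≥ j₀, ∀ j ≥ j₀, ∀ κ ∈ K, h i j * κ = κ * h i j := by
    obtain ⟨SK, hSK⟩ := hS.fg.out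
    have h1 : ∀ κ : K, ∃ j₀, ∀ i ≥ j₀, ∀ j ≥ j₀, h i j * κ = κ * h i j := fun κ =>
      hcomm κ κ.2
    choose J' hJ' using h1
    refine ⟨SK.sup J', fun i hi j hj => ?_⟩
    have h2 : ∀ κ : K, h i j * κ = κ * h i j := by
      intro κ
      have hκ : κ ∈ Subgroup.closure (SK : Set K) := by rw [hSK]; exact Subgroup.mem_top _
      refine Subgroup.closure_induction (p := fun (κ : K) _ => h i j * κ = κ * h i j)
        ?_ ?_ ?_ ?_ hκ
      · intro x hx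
        exact hJ' x i ((Finset.le_sup hx).trans hi) j ((Finset.le_sup hx).trans hj)
      · simp
      · intro x y _ _ h3 h4
        rw [Subgroup.coe_mul, ← mul_assoc, h3, mul_assoc, h4, mul_assoc]
      · intro x _ h3
        rw [Subgroup.coe_inv]
        have : (x : Γ)⁻¹ * (h i j * x) * (x : Γ)⁻¹ = (x : Γ)⁻¹ * (x * h i j) * (x : Γ)⁻¹ := by
          rw [h3]
        simpa [mul_assoc] using this.symm
    intro κ hκ
    exact h2 ⟨κ, hκ⟩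
  -- a pair of indices
  obtain ⟨z₀, hz₀⟩ := hL.good.nonempty hS.gal.cov
  obtain ⟨e', b', F', β', γ', τ', hL'⟩ := hL.chart z₀ hz₀
  set x₀ := b' (e' (p z₀)) with hx₀
  obtain ⟨C, -⟩ := H212.exists_pc hL'.γan hL'.imm one_pos
  obtain ⟨ρ, hρ, h1⟩ := hmain z₀ hz₀ e' b' F' β' γ' τ' hL' 1 hc1
  obtain ⟨j₁, hj₁⟩ := h1 C.r₁ C.r₁_pos
  set j := max j₀ j₁ with hj
  set i := j + 1 with hi
  have hij0 : j₀ ≤ i := by have := le_max_left j₀ j₁; omega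
  have hij1 : j₁ ≤ i := by have := le_max_right j₀ j₁; omega
  have hcom := hj₀ i hij0 j (le_max_left _ _)
  obtain ⟨φ, hφ, hφd⟩ := hj₁ i hij1 j (le_max_right _ _)
  have hone : (1 : Γ) * (((g ∘ θ) ∘ σ₁) (σ₂ i) * (((g ∘ θ) ∘ σ₁) (σ₂ j))⁻¹) * 1⁻¹ = h i j := by
    simp [hh, hG]
  rw [hone] at hφ
  have hπh : π (h i j) = 1 := hπ _ hcom
  -- `U h` fixes `γ b₀`
  have hUγ : U (h i j) (γ' (β' x₀)) = γ' (β' x₀) := by
    choose ξ hξ using fun l : Fin (q + r) => hL'.bsurj (Pi.single l 1)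
    have h2 : (Matrix.of fun i j => fderiv ℂ b' (e' (p z₀)) (ξ j) i) = 1 := by
      ext i' j'
      rw [Matrix.of_apply, hξ, Matrix.one_apply, Pi.single_apply]
    have h3 := hL'.v_eq.self_of_nhds ξ
    rw [h2, Matrix.det_one, one_pow, one_smul] at h3
    have h4 := hL.equi (h i j) z₀ e' hL'.mem ξ
    rw [hL.triv (h i j) hπh z₀ e' hL'.mem ξ, h3] at h4
    exact h4.symm
  have hx₀b : β' x₀ ∈ ball (β' x₀) ρ := mem_ball_self hρ
  obtain ⟨⟨a, ha⟩, hτ⟩ := hφ.2 _ hx₀b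
  rw [hUγ] at ha
  have hne0 : γ' (β' x₀) ≠ 0 := hL'.imm.1
  have ha0 : a ≠ 0 := by
    rintro rfl
    rw [zero_smul] at ha
    exact hne0 ha
  have hφb : φ (β' x₀) ∈ ball (β' x₀) C.r₁ := by
    rw [mem_ball, dist_eq_norm]
    exact hφd _ hx₀b
  have heq : β' x₀ = φ (β' x₀) := C.inj (mem_ball_self C.r₁_pos) hφb ha0 ha
  rw [← heq, sub_self, zero_sub] at hτ
  have hcS : c (h i j) ∈ LinearMap.range (N : Cm k →ₗ[ℂ] Cm q) := by
    have := Submodule.neg_mem _ hτ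
    rwa [neg_neg] at this
  have hhS : h i j ∈ S₀ := (hS₀ _).2 ⟨hcom, hcS⟩
  have hcentral := hcen _ hcom
  have hcoset : ((G j : Γ) : Γ ⧸ S₀) = (G i : Γ) := by
    rw [QuotientGroup.eq]
    have h2 : G i = h i j * G j := by simp [hh]
    rw [h2, hcentral, inv_mul_cancel_left]
    exact hhS
  rw [hG] at hcoset
  simp only at hcoset
  rw [hg, hg] at hcoset
  have h2 := hinf'.injective (Subtype.ext hcoset)
  have h3 := hσ₂.injective (hσ₁.injective (hθ.injective h2))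
  omega

end

end Vale.Agent.P284.H988.T
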