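import Vale.Agent.P284.H988.T.LFO

/-!
# P284 (helper988), T3⁺, (T5): `LFOStmt`
-/

open scoped Manifold ContDiff Topology InnerProductSpace ComplexConjugate
open Filter Set Metric

noncomputable section

set_option linter.unusedSectionVars false

namespace Vale.Agent.P284.H988.T

open Vale.Agent.P272.K Vale.Agent.P284.H894.G Vale.Agent.P284.H894.V Vale.Agent.P284.H894.W
  Vale.Agent.P284.H213.Grp Vale.Agent.P284.H619 Vale.Agent.P284.H10 Vale.Agent.P284.H573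
  Vale.Agent.P284.H625 Vale.Agent.P284.H378 Vale.Agent.P284.H212 Vale.Agent.P284.H395
  Vale.Agent.P284.H478.G Vale.Agent.P284.H494
open Vale.Agent.P284.H650.T (TwoPot JPot TEqui AffTriv JDat Std IsJ DK1 IsLD)
open Vale.Agent.P284.H573.GG (Rel rel_iff lc_onL)

section
variable {n q R k s : ℕ} {X E : Type} [TopologicalSpace X] [ChartedSpace (Cm n) X]
  [TopologicalSpace E] {H : Type} [NormedAddCommGroup H]
  [InnerProductSpace ℂ H] {p : E → X} {F : E → Cm q} {v : E → Chart n X → (Fin R → Cm n) → H}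
  {D : LeafDat q s k H}

/-- the sheet relation holds nearby -/
theorem sh_near (hp : IsCoveringMap p) {y : E} {b : Cm s} (h : Sh p v F D y b) {O : Set (Cm s)}
    (hO : O ∈ 𝓝 b) : ∀ᶠ y' in 𝓝 y, ∃ b' ∈ O, Sh p v F D y' b' := by
  obtain ⟨e, β, he, hβ, rfl, h1⟩ := h
  have h2 : Tendsto (fun y' => β (e (p y'))) (𝓝 y) (𝓝 (β (e (p y)))) :=
    hβ.continuousAt.tendsto.comp (map_ep hp he).le
  filter_upwards [at_ev hp he, (ev_iff hp he).2 hβ.eventually_analyticAt, h1.eventually_nhds,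
    h2.eventually hO] with y' a1 a2 a3 a4
  exact ⟨_, a4, e, β, a1, a2, rfl, a3⟩

/-- the part of smaller radius of a clopen part -/
theorem ClPart.small (hp : IsCoveringMap p) {r r₀ : ℝ} (hr : r₀ ≤ r) {O : Set E}
    (hO : ClPart p v F D r O) :
    ClPart p v F D r₀ (O ∩ {y | ∃ b ∈ ball D.b₀ r₀, Sh p v F D y b}) where
  act y hy := hy.2
  loc := by
    rintro y hy ⟨b, hb, hs⟩
    filter_upwards [hO.loc y hy ⟨b, ball_subset_ball hr hb, hs⟩,
      sh_near hp hs (isOpen_ball.mem_nhds hb)] with y' h1 h2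
    constructor
    · rintro ⟨h3, -⟩
      exact ⟨h1.1 h3, b, hb, hs⟩
    · rintro ⟨h3, -⟩
      exact ⟨h1.2 h3, h2⟩

end

/-- **(T5)** -/
theorem lfoStmt_of (hLC : H650.T.LeafConstStmt) : H650.T.LFOStmt := by
  intro n q r k s m X _ _ _ _ _ _ w E Γ _ _ _ _ p F c K hS hcen W H _ _ _ _ _ _ π S Θ J T hJ hT
    hTe hπ hfa v U N 𝒢 hL hDK
  have hp := hS.gal
  obtain ⟨-, -, hJP, -, -⟩ := H619.T.thStmt n q X w E Γ p F c K hS W π S Θ J hJ
  obtain ⟨hRo, hRd, hRc, hRcon, hRinv, hsep⟩ := sepStmt n q X w E Γ p F c K hS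
  -- the base point
  obtain ⟨y₀, hy₀G, hy₀R⟩ : ∃ y₀, y₀ ∈ 𝒢 ∧ F y₀ ∈ RV n p F := by
    obtain ⟨y₁, -⟩ := hL.good.nonempty hp.cov
    have h1 := (hsep 𝒢 hL.good univ isOpen_univ isPreconnected_univ).2 (mem_univ y₁)
    obtain ⟨y, -, ⟨-, h2⟩, h3⟩ := (_root_.mem_closure_iff.1 h1) univ isOpen_univ (mem_univ _)
    exact ⟨y, h2, h3⟩
  obtain ⟨e, b, F0, β, γ, τ, hC⟩ := hL.chart y₀ hy₀G
  obtain ⟨P, hP⟩ : ∃ P : Cm q →L[ℂ] Cm k, ∀ x, P (N x) = x := by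
    obtain ⟨g, hg⟩ := LinearMap.exists_leftInverse_of_injective (N : Cm k →ₗ[ℂ] Cm q)
      (LinearMap.ker_eq_bot.2 hL.Ninj)
    exact ⟨LinearMap.toContinuousLinearMap g, fun x => LinearMap.congr_fun hg x⟩
  have hcadd := hS.lat.add
  have hc1 : c 1 = 0 := hS.lat.map_one
  have hcinv := hS.lat.map_inv
  let D : LeafDat q s k H :=
    { b₀ := β (b (e (p y₀)))
      γ := γ
      t := τ
      N := fun _ => N
      γan := hC.γan
      imm := hC.imm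
      tan := hC.τan
      Nan := analyticAt_const
      inj := hL.Ninj }
  let S₀ : Subgroup Γ :=
    { carrier := {g | (∀ h ∈ K, g * h = h * g) ∧ c g ∈ LinearMap.range (N : Cm k →ₗ[ℂ] Cm q)}
      mul_mem' := by
        rintro g g' ⟨h1, h2⟩ ⟨h3, h4⟩
        refine ⟨fun h hh => ?_, ?_⟩
        · rw [mul_assoc, h3 h hh, ← mul_assoc, h1 h hh, mul_assoc]
        · rw [hcadd]; exact Submodule.add_mem _ h2 h4
      one_mem' := ⟨fun h _ => by simp, by rw [hc1]; exact Submodule.zero_mem _⟩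
      inv_mem' := by
        rintro g ⟨h1, h2⟩
        refine ⟨fun h hh => ?_, ?_⟩
        · have h3 := congrArg (fun x => g⁻¹ * x * g⁻¹) (h1 h hh)
          simpa [mul_assoc] using h3.symm
        · rw [hcinv]; exact Submodule.neg_mem _ h2 }
  have hpg : ∀ (g : Γ) (y : E), p (g • y) = p y := fun g y => ((hp.orb y (g • y)).2 ⟨g, rfl⟩).symm
  obtain ⟨r₁, hr₁, hfin⟩ := lfo_fin hS hcen hT hTe hJ.isJ.comm hJP hπ hfa hL hDK D (fun _ => rfl)
    S₀ (fun g => Iff.rfl)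
  obtain ⟨r₂, hr₂, hOO⟩ := H366.T.exists_OO hLC sepStmt n q r k s m X w E Γ p F c K hS W H π S Θ J T
    hJ hT hTe v U N 𝒢 hL y₀ hy₀G hy₀R e b F0 β γ τ hC D ⟨rfl, rfl, rfl, fun _ => rfl⟩
  set r₀ : ℝ := min r₁ (r₂ / 3) with hr₀
  have hr₀pos : 0 < r₀ := by positivity
  have h3 : 3 * r₀ ≤ r₂ := by
    have := min_le_right r₁ (r₂ / 3)
    linarith
  obtain ⟨O, hO, hy₀O, hPO, hinvO⟩ := hOO (3 * r₀) (by positivity) h3
  -- the sheets are preserved
  have hSh : ∀ g ∈ S₀, ∀ y : E, ∀ x ∈ ball D.b₀ r₀, NZ p v y → Sh p v F D y x →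
      Sh p v F D (g • y) x := by
    rintro g ⟨hg1, hg2⟩ y x hx - ⟨e', β', h1, h2, h3, h4⟩
    have hπg : π g = 1 := hπ g hg1
    refine ⟨e', β', by rw [hpg]; exact h1, by rw [hpg]; exact h2, by rw [hpg]; exact h3, ?_⟩
    have hcont : Tendsto (fun y' : E => g⁻¹ • y') (𝓝 (g • y)) (𝓝 y) := by
      have := (hp.cont g⁻¹).tendsto (g • y)
      rwa [inv_smul_smul] at this
    filter_upwards [hcont.eventually h4, hcont.eventually (at_ev hp.cov h1)] with y' h5 h6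
    have hy' : g • g⁻¹ • y' = y' := smul_inv_smul g y'
    have hp' : p (g⁻¹ • y') = p y' := hpg _ _
    rw [hp'] at h5
    refine ⟨fun ξ => ?_, ?_⟩
    · obtain ⟨a, ha⟩ := h5.1 ξ
      refine ⟨a, ?_⟩
      rw [← ha, ← hL.triv g hπg _ e' h6 ξ, hy']
    · have h7 : F y' = F (g⁻¹ • y') + c g := by rw [← hS.eqv, hy']
      have h8 : F y' - D.t (β' (e' (p y'))) =
          (F (g⁻¹ • y') - D.t (β' (e' (p y')))) + c g := by rw [h7]; abel
      rw [h8]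
      exact Submodule.add_mem _ h5.2 hg2
  have hbt : Tendsto (fun y => b (e (p y))) (𝓝 y₀) (𝓝 (b (e (p y₀)))) :=
    hC.ban.continuousAt.tendsto.comp (map_ep hp.cov hC.mem).le
  refine ⟨D, y₀, r₀, O ∩ {y | ∃ b ∈ ball D.b₀ r₀, Sh p v F D y b}, S₀, fun _ => rfl, ?_, hr₀pos,
    hO.small hp.cov (by linarith), ⟨hy₀O, ?_⟩, fun g hg => hg.1, ?_, ?_, ?_⟩
  · -- `LeafAt`
    have hdb := hC.ban.differentiableAt.hasFDerivAt
    have hd1 : HasFDerivAt (fun x => β (b x))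
        (fderiv ℂ β (b (e (p y₀))) ∘L fderiv ℂ b (e (p y₀))) (e (p y₀)) :=
      hC.βan.differentiableAt.hasFDerivAt.comp _ hdb
    have hd2 : HasFDerivAt (fun x => tq (b x)) (tqc q r ∘L fderiv ℂ b (e (p y₀))) (e (p y₀)) :=
      (tqc q r).hasFDerivAt.comp _ hdb
    refine ⟨e, b, fun x => β (b x), fun x => tq (b x), hC.mem, hC.ban, hC.bsurj,
      hC.βan.comp hC.ban, ?_, rfl, hC.t_eq, ((tqc q r).analyticAt _).comp hC.ban, hC.v_eq, ?_,
      ?_⟩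
    · rw [hd1.fderiv]
      exact hC.βsurj.comp hC.bsurj
    · filter_upwards [hbt.eventually hC.leaf, hC.t_eq] with y h1 h2
      rw [h2]; exact h1
    · rintro _ ⟨x, rfl⟩
      obtain ⟨ζ, h1, h2⟩ := exists_dir hL.dim hP hC.βan hC.trans hC.τan hC.leaf x
      obtain ⟨ξ, hξ⟩ := hC.bsurj ζ
      refine ⟨ξ, ?_, ?_⟩
      · rw [hd1.fderiv, ContinuousLinearMap.comp_apply, hξ, h1]
      · rw [hd2.fderiv, ContinuousLinearMap.comp_apply, hξ, tqc_apply, h2]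
        rfl
  · refine ⟨D.b₀, mem_ball_self hr₀pos, e, fun x => β (b x), hC.mem, hC.βan.comp hC.ban, rfl, ?_⟩
    filter_upwards [hbt.eventually hC.leaf, hC.t_eq, hC.v_eq] with y h1 h2 h4
    refine ⟨fun ξ => ⟨_, h4 ξ⟩, ?_⟩
    rw [h2]
    exact h1
  · rintro g hg y ⟨hyO, x, hx, hs⟩ hnz
    exact ⟨hinvO g hg.1 (hπ g hg.1) hg.2 y hyO, x, hx, hSh g hg y x hx hnz hs⟩
  · rintro g hg y - x hx hnz hs
    exact hSh g hg y x hx hnz hs
  · intro K₀ hK₀ hNZ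
    refine (hfin r₀ hr₀pos (min_le_left _ _) O hO hPO K₀ hK₀ hNZ).subset ?_
    rintro a ⟨g, hg, y, hy, hyO, hys⟩
    exact ⟨g, hg, y, hy, hyO, hys⟩

end Vale.Agent.P284.H988.T
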