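import Vale.Agent.P284.H378.Slide
import Vale.Agent.P284.H212.Cont

/-!
# P284 (helper988), T3⁺: the lifts of near identity sheet maps, with uniqueness and nearby slices

After helper378's `exists_psi`.
-/

open scoped Manifold ContDiff Topology InnerProductSpace ComplexConjugate
open Filter Set Metric

noncomputable section

namespace Vale.Agent.P284.H988.T

open Vale.Agent.P272.K Vale.Agent.P284.H573 Vale.Agent.P284.H625 Vale.Agent.P284.H378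
  Vale.Agent.P284.H212

variable {q r k s : ℕ} {W H : Type} [NormedAddCommGroup W] [InnerProductSpace ℂ W]
  [NormedAddCommGroup H] [InnerProductSpace ℂ H] {Γ : Type} [Group Γ]

/-- constancy of `F0 ∘ ψ - π F0` along the slices of a ball -/
theorem seg_const [CompleteSpace W] {x₀ : Cm (q + r)} {R : ℝ} {ψ : Cm (q + r) → Cm (q + r)}
    {F0 : Cm (q + r) → W} {V : W ≃ₗᵢ[ℂ] W}
    (h1 : ∀ x ∈ ball x₀ R, AnalyticAt ℂ (fun x => F0 (ψ x)) x ∧ AnalyticAt ℂ F0 x)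
    (h2 : ∀ x ∈ ball x₀ R, ∀ ζ : Cm (q + r), tq ζ = 0 →
      fderiv ℂ (fun x => F0 (ψ x)) x ζ = V (fderiv ℂ F0 x ζ)) {x x' : Cm (q + r)}
    (hx : x ∈ ball x₀ R) (hx' : x' ∈ ball x₀ R) (ht : tq x = tq x') :
    F0 (ψ x) - F0 (ψ x') = V (F0 x - F0 x') := by
  set d := x - x' with hd
  have hdv : tq d = 0 := by
    have : tqc q r d = tqc q r x - tqc q r x' := map_sub _ _ _
    rw [tqc_apply, tqc_apply, tqc_apply, ht, sub_self] at this
    exact this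
  have hseg : ∀ s ∈ Icc (0 : ℝ) 1, x' + s • d ∈ ball x₀ R := fun s hs =>
    (convex_ball x₀ R).add_smul_sub_mem hx' hx hs
  have hder : ∀ s ∈ Icc (0 : ℝ) 1,
      HasDerivAt (fun s : ℝ => F0 (ψ (x' + s • d)) - V (F0 (x' + s • d))) 0 s := by
    intro s hs
    have hy := hseg s hs
    obtain ⟨a1, a2⟩ := h1 _ hy
    have b1 : HasFDerivAt (fun x => F0 (ψ x)) (fderiv ℂ (fun x => F0 (ψ x)) (x' + s • d))
        (x' + s • d) := a1.differentiableAt.hasFDerivAt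
    have b2 : HasFDerivAt (fun x => V (F0 x))
        ((V.toContinuousLinearEquiv : W →L[ℂ] W) ∘L fderiv ℂ F0 (x' + s • d))
        (x' + s • d) :=
      (V.toContinuousLinearEquiv : W →L[ℂ] W).hasFDerivAt.comp _ a2.differentiableAt.hasFDerivAt
    have b3 := (b1.sub b2).restrictScalars ℝ
    have b4 : HasDerivAt (fun s : ℝ => x' + s • d) d s := by
      simpa using ((hasDerivAt_id s).smul_const d).const_add x'
    have b5 := b3.comp_hasDerivAt s b4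
    have b6 : ((fderiv ℂ (fun x => F0 (ψ x)) (x' + s • d) -
        (V.toContinuousLinearEquiv : W →L[ℂ] W) ∘L fderiv ℂ F0 (x' + s • d)).restrictScalars
        ℝ) d = 0 := by
      rw [ContinuousLinearMap.coe_restrictScalars', sub_apply, h2 _ hy d hdv]
      simp
    rw [b6] at b5
    exact b5
  have hc := constant_of_has_deriv_right_zero
    (f := fun s : ℝ => F0 (ψ (x' + s • d)) - V (F0 (x' + s • d))) (a := 0) (b := 1)
    (fun s hs => (hder s hs).continuousAt.continuousWithinAt)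
    (fun s hs => (hder s ⟨hs.1, hs.2.le⟩).hasDerivWithinAt)
  have h3 := hc 1 ⟨zero_le_one, le_refl 1⟩
  simp only [one_smul, zero_smul, add_zero, hd, add_sub_cancel] at h3
  rw [map_sub]
  have h4 : F0 (ψ x) = (F0 (ψ x') - V (F0 x')) + V (F0 x) := by rw [← h3]; abel
  rw [h4]; abel

/-- A near identity sheet map lifts to a near identity map of the slices which preserves `Θ`; the lift
is unique. -/
theorem exists_psi2 [CompleteSpace W] [CompleteSpace H] (hdim : q + r = s + k)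
    {N : Cm k →L[ℂ] Cm q} {P : Cm q →L[ℂ] Cm k}
    (hP : ∀ x, P (N x) = x) {x₀ : Cm (q + r)} {β : Cm (q + r) → Cm s} {τ : Cm s → Cm q}
    (hβ : AnalyticAt ℂ β x₀) (htr : ∀ ζ : Cm (q + r), tq ζ = 0 → fderiv ℂ β x₀ ζ = 0 → ζ = 0)
    (hτ : AnalyticAt ℂ τ (β x₀))
    (hleaf : ∀ᶠ x in 𝓝 x₀, tq x - τ (β x) ∈ LinearMap.range (N : Cm k →ₗ[ℂ] Cm q))
    {U : Γ → (H →ₗᵢ[ℂ] H)} {π : Γ →* (W ≃ₗᵢ[ℂ] W)} {c : Γ → Cm q} {γ : Cm s → H}
    (hγ : AnalyticAt ℂ γ (β x₀)) (him : ImmAt γ (β x₀))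
    {F0 : Cm (q + r) → W} (hF0 : AnalyticAt ℂ F0 x₀)
    (hsheet : ∃ ρ > 0, ∀ (g : Γ), ∀ x₁ ∈ ball x₀ ρ, ∀ ψ : Cm (q + r) → Cm (q + r),
      AnalyticAt ℂ ψ x₁ → ψ x₁ ∈ ball x₀ ρ →
      (∃ c : Cm q, ∀ᶠ x in 𝓝 x₁, tq (ψ x) = tq x + c) →
      (∀ᶠ x in 𝓝 x₁, ∃ a : ℂ, U g (γ (β x)) = a • γ (β (ψ x))) →
      ∀ᶠ x in 𝓝 x₁, ∀ ζ : Cm (q + r), tq ζ = 0 →
        fderiv ℂ (fun x => F0 (ψ x)) x ζ = π g (fderiv ℂ F0 x ζ))
    {ρ : ℝ} (hρ : 0 < ρ) :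
    ∃ ρ' > 0, ∀ ε > 0, ∃ δ > 0, ∀ (g : Γ) (φ : Cm s → Cm s), NI U c N γ τ (β x₀) ρ g φ →
      (∀ x ∈ ball (β x₀) ρ, ‖φ x - x‖ < δ) →
      ∃ ψ : Cm (q + r) → Cm (q + r),
        (∀ x ∈ ball x₀ ρ', ‖ψ x - x‖ < ε ∧ tq (ψ x) = tq x + (c g - N (P (c g))) ∧
          ∃ a : ℂ, a ≠ 0 ∧ U g (γ (β x)) = a • γ (β (ψ x))) ∧
        (∀ x ∈ ball x₀ ρ', ∀ x' ∈ ball x₀ ρ', tq x = tq x' →
          F0 (ψ x) - F0 (ψ x') = π g (F0 x - F0 x')) ∧
        ∀ x ∈ ball x₀ ρ', ∀ x'' ∈ ball x₀ ρ', tq x'' = tq x + (c g - N (P (c g))) →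
          (∃ a : ℂ, a ≠ 0 ∧ U g (γ (β x)) = a • γ (β x'')) → x'' = ψ x := by
  obtain ⟨I, hI, hI1, hI2⟩ := exists_coord hdim hP hβ htr hτ hleaf
  obtain ⟨ρs, hρs, hsheet⟩ := hsheet
  obtain ⟨CP, -⟩ := exists_pc hγ him one_pos
  have hNP : ∀ y ∈ LinearMap.range (N : Cm k →ₗ[ℂ] Cm q), N (P y) = y := by
    rintro _ ⟨x, rfl⟩
    simp only [ContinuousLinearMap.coe_coe, hP]
  set z₀ : Cm s × Cm k := (β x₀, P (tq x₀)) with hz₀
  have hI0 : I z₀ = x₀ := hI1.self_of_nhds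
  have hIc : Tendsto I (𝓝 z₀) (𝓝 x₀) := by
    have := hI.continuousAt.tendsto
    rwa [hI0] at this
  obtain ⟨KI, sI, hsI, hlip⟩ := hI.hasStrictFDerivAt.exists_lipschitzOnWith
  have e1 : ∀ᶠ z in 𝓝 z₀, AnalyticAt ℂ I z ∧ (β (I z) = z.1 ∧ P (tq (I z)) = z.2) ∧
      tq (I z) - τ (β (I z)) ∈ LinearMap.range (N : Cm k →ₗ[ℂ] Cm q) ∧
      AnalyticAt ℂ F0 (I z) ∧ I z ∈ ball x₀ ρs ∧ z ∈ sI :=
    hI.eventually_analyticAt.and (hI2.and ((hIc.eventually hleaf).and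
      ((hIc.eventually hF0.eventually_analyticAt).and
        ((hIc.eventually (ball_mem_nhds x₀ hρs)).and hsI))))
  obtain ⟨R1, hR1, he1⟩ := Metric.eventually_nhds_iff_ball.1 e1
  have hr₁ := CP.r₁_pos
  have hβc : Tendsto β (𝓝 x₀) (𝓝 (β x₀)) := hβ.continuousAt.tendsto
  have htc : Tendsto (fun x : Cm (q + r) => P (tq x)) (𝓝 x₀) (𝓝 (P (tq x₀))) :=
    (P.continuous.comp (tqc q r).continuous).tendsto x₀
  have e2 : ∀ᶠ x in 𝓝 x₀, β x ∈ ball (β x₀) (min ρ (min (R1 / 2) (CP.r₁ / 2))) ∧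
      P (tq x) ∈ ball (P (tq x₀)) R1 ∧ I (β x, P (tq x)) = x ∧
      tq x - τ (β x) ∈ LinearMap.range (N : Cm k →ₗ[ℂ] Cm q) ∧ AnalyticAt ℂ β x ∧
      AnalyticAt ℂ F0 x ∧ x ∈ ball x₀ ρs :=
    (hβc.eventually (ball_mem_nhds _ (by positivity))).and
      ((htc.eventually (ball_mem_nhds _ hR1)).and (hI1.and (hleaf.and
        (hβ.eventually_analyticAt.and (hF0.eventually_analyticAt.and (ball_mem_nhds _ hρs))))))
  obtain ⟨R2, hR2, he2⟩ := Metric.eventually_nhds_iff_ball.1 e2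
  refine ⟨R2, hR2, fun ε hε => ⟨min (min (R1 / 2) (CP.r₁ / 2)) (ε / (KI + 1)), by positivity,
    fun g φ hφ hφδ => ?_⟩⟩
  set ψ : Cm (q + r) → Cm (q + r) := fun x => I (φ (β x), P (tq x)) with hψ
  have hβρ : ∀ x ∈ ball x₀ R2, β x ∈ ball (β x₀) ρ ∧ β x ∈ ball (β x₀) (R1 / 2) ∧
      β x ∈ ball (β x₀) (CP.r₁ / 2) := fun x hx =>
    ⟨ball_subset_ball (min_le_left _ _) (he2 x hx).1,
      ball_subset_ball ((min_le_right _ _).trans (min_le_left _ _)) (he2 x hx).1,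
      ball_subset_ball ((min_le_right _ _).trans (min_le_right _ _)) (he2 x hx).1⟩
  have hz : ∀ x ∈ ball x₀ R2, (φ (β x), P (tq x)) ∈ ball z₀ R1 := by
    intro x hx
    obtain ⟨a1, a2, -⟩ := he2 x hx
    rw [← ball_prod_same, mem_prod]
    refine ⟨?_, a2⟩
    have a4 := (hβρ x hx).2.1
    have a5 := (hφδ _ (hβρ x hx).1).trans_le ((min_le_left _ _).trans (min_le_left _ _))
    rw [mem_ball] at *
    rw [← dist_eq_norm] at a5
    have := dist_triangle (φ (β x)) (β x) (β x₀)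
    linarith
  have hφr : ∀ x ∈ ball x₀ R2, φ (β x) ∈ ball (β x₀) CP.r₁ := by
    intro x hx
    have a4 := (hβρ x hx).2.2
    have a5 := (hφδ _ (hβρ x hx).1).trans_le ((min_le_left _ _).trans (min_le_right _ _))
    rw [mem_ball] at *
    rw [← dist_eq_norm] at a5
    have := dist_triangle (φ (β x)) (β x) (β x₀)
    linarith
  have hz' : ∀ x ∈ ball x₀ R2, (β x, P (tq x)) ∈ ball z₀ R1 := by
    intro x hx
    obtain ⟨a1, a2, -⟩ := he2 x hx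
    rw [← ball_prod_same, mem_prod]
    exact ⟨ball_subset_ball (by linarith) (hβρ x hx).2.1, a2⟩
  have hφan : ∀ x ∈ ball (β x₀) ρ, AnalyticAt ℂ φ x := fun x hx =>
    Vale.Agent.P268.analyticAt_of_differentiableOn isOpen_ball hφ.1 hx
  have hψan : ∀ x ∈ ball x₀ R2, AnalyticAt ℂ ψ x := by
    intro x hx
    obtain ⟨a1, a2, a3, a4, a5, -⟩ := he2 x hx
    have b1 : AnalyticAt ℂ (fun x => φ (β x)) x :=
      AnalyticAt.fun_comp (hφan _ (hβρ x hx).1) a5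
    have b2 : AnalyticAt ℂ (fun x : Cm (q + r) => P (tq x)) x := (P ∘L tqc q r).analyticAt x
    exact AnalyticAt.fun_comp (he1 _ (hz x hx)).1 (b1.prod b2)
  have hβψ : ∀ x ∈ ball x₀ R2, β (ψ x) = φ (β x) ∧ P (tq (ψ x)) = P (tq x) := fun x hx =>
    (he1 _ (hz x hx)).2.1
  have htψ : ∀ x ∈ ball x₀ R2, tq (ψ x) = tq x + (c g - N (P (c g))) := by
    intro x hx
    obtain ⟨a1, a2, a3, a4, a5, -⟩ := he2 x hx
    obtain ⟨b1, ⟨b2, b3⟩, b4, -⟩ := he1 _ (hz x hx)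
    have b5 := (hφ.2 _ (hβρ x hx).1).2
    change β (ψ x) = φ (β x) at b2
    change P (tq (ψ x)) = P (tq x) at b3
    change tq (ψ x) - τ (β (ψ x)) ∈ _ at b4
    rw [b2] at b4
    have b6 := Submodule.add_mem _ (Submodule.sub_mem _ b4 a4) b5
    have b7 : tq (ψ x) - τ (φ (β x)) - (tq x - τ (β x)) + (τ (φ (β x)) - τ (β x) - c g) =
        tq (ψ x) - tq x - c g := by abel
    rw [b7] at b6
    have b10 : P (tq (ψ x) - tq x - c g) = -(P (c g)) := by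
      rw [map_sub, map_sub, b3, sub_self, zero_sub]
    have b8 := hNP _ b6
    rw [b10, map_neg] at b8
    have b9 : tq (ψ x) = (tq (ψ x) - tq x - c g) + tq x + c g := by abel
    rw [b9, ← b8]
    abel
  have hfd : ∀ x ∈ ball x₀ R2, ∀ ζ : Cm (q + r), tq ζ = 0 →
      fderiv ℂ (fun x => F0 (ψ x)) x ζ = π g (fderiv ℂ F0 x ζ) := by
    intro x hx
    obtain ⟨a1, a2, a3, a4, a5, a6, a7⟩ := he2 x hx
    obtain ⟨b1, ⟨b2, b3⟩, b4, b5, b6, -⟩ := he1 _ (hz x hx)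
    refine (hsheet g x a7 ψ (hψan x hx) b6 ⟨c g - N (P (c g)), ?_⟩ ?_).self_of_nhds
    · filter_upwards [isOpen_ball.mem_nhds hx] with x' hx'
      exact htψ x' hx'
    · filter_upwards [isOpen_ball.mem_nhds hx] with x' hx'
      obtain ⟨a, ha⟩ := (hφ.2 _ (hβρ x' hx').1).1
      refine ⟨a, ?_⟩
      rw [(hβψ x' hx').1]
      exact ha
  have hγne : ∀ x ∈ ball (β x₀) CP.r₁, γ x ≠ 0 := fun x hx h0 =>
    CP.l₀_ne x hx (by rw [h0, map_zero])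
  have hrel : ∀ x ∈ ball x₀ R2, ∃ a : ℂ, a ≠ 0 ∧ U g (γ (β x)) = a • γ (β (ψ x)) := by
    intro x hx
    obtain ⟨a, ha⟩ := (hφ.2 _ (hβρ x hx).1).1
    refine ⟨a, ?_, by rw [(hβψ x hx).1]; exact ha⟩
    rintro rfl
    rw [zero_smul] at ha
    refine hγne (β x) (ball_subset_ball (by linarith) (hβρ x hx).2.2) ?_
    exact (U g).injective (by rw [ha, map_zero])
  refine ⟨ψ, fun x hx => ⟨?_, htψ x hx, hrel x hx⟩, fun x hx x' hx' ht =>
    seg_const (fun x hx => ⟨AnalyticAt.fun_comp (he1 _ (hz _ hx)).2.2.2.1 (hψan _ hx),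
      (he2 x hx).2.2.2.2.2.1⟩) hfd hx hx' ht, fun x hx x'' hx'' ht hr => ?_⟩
  · obtain ⟨a1, a2, a3, -⟩ := he2 x hx
    have b1 := hlip.norm_sub_le (he1 _ (hz x hx)).2.2.2.2.2 (he1 _ (hz' x hx)).2.2.2.2.2
    have b2 := (hφδ _ (hβρ x hx).1).trans_le (min_le_right _ _)
    have b3 : ‖((φ (β x), P (tq x)) : Cm s × Cm k) - (β x, P (tq x))‖ = ‖φ (β x) - β x‖ := by
      rw [Prod.mk_sub_mk, sub_self, Prod.norm_def]
      simp
    rw [b3, a3] at b1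
    refine b1.trans_lt ?_
    calc (KI : ℝ) * ‖φ (β x) - β x‖ ≤ (KI + 1) * ‖φ (β x) - β x‖ := by
          gcongr; linarith
      _ < (KI + 1) * (ε / (KI + 1)) := by gcongr
      _ = ε := by field_simp
  · -- uniqueness
    obtain ⟨a, ha, h1⟩ := hr
    obtain ⟨a', ha', h2⟩ := hrel x hx
    have h3 : φ (β x) = β x'' := by
      rw [(hβψ x hx).1] at h2
      refine CP.inj (hφr x hx) (ball_subset_ball (by linarith) (hβρ x'' hx'').2.2)
        (a := a'⁻¹ * a) (mul_ne_zero (inv_ne_zero ha') ha) ?_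
      rw [mul_smul, ← h1, h2, smul_smul, inv_mul_cancel₀ ha', one_smul]
    have h4 : P (tq x'') = P (tq x) := by
      rw [ht, map_add, map_sub, hP, sub_self, add_zero]
    have h5 := (he2 x'' hx'').2.2.1
    rw [← h5, ← h3, h4]

end Vale.Agent.P284.H988.T
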