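import Vale.Agent.P284.H988.T.Psi2
import Vale.Agent.P284.H573.G.Fib
import Vale.Agent.P284.H551.EMap
import Vale.Agent.P284.H35.S4b
import Vale.Agent.P284.H478.G.S
import Vale.Agent.P284.H650.T.Spec

/-!
# P284 (helper988), T3⁺: transport of near identity sheet maps along the fibres
-/

open scoped Manifold ContDiff Topology InnerProductSpace ComplexConjugate
open Filter Set Metric

noncomputable section

set_option linter.unusedSectionVars false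

namespace Vale.Agent.P284.H988.T

open Vale.Agent.P272.K Vale.Agent.P284.H894.G Vale.Agent.P284.H894.V Vale.Agent.P284.H894.W
  Vale.Agent.P284.H213.Grp Vale.Agent.P284.H619 Vale.Agent.P284.H10 Vale.Agent.P284.H573
  Vale.Agent.P284.H625 Vale.Agent.P284.H378 Vale.Agent.P284.H212 Vale.Agent.P284.H395
  Vale.Agent.P284.H478.G Vale.Agent.P284.H494
open Vale.Agent.P284.H573.GG (Rel rel_iff lc_onL)
open Vale.Agent.P284.H650.T (TwoPot JPot TEqui AffTriv JDat Std)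

/-- the shift of `F` by a near identity sheet map -/
def cb {q k : ℕ} {Γ : Type} (c : Γ → Cm q) (N : Cm k →L[ℂ] Cm q) (P : Cm q →L[ℂ] Cm k) (g : Γ) :
    Cm q := c g - N (P (c g))

section
variable {n q r k s m : ℕ} {X E Γ W H : Type} [TopologicalSpace X] [ChartedSpace (Cm n) X]
  [TopologicalSpace E] [Group Γ] [MulAction Γ E]
  [NormedAddCommGroup W] [InnerProductSpace ℂ W] [NormedAddCommGroup H]
  [InnerProductSpace ℂ H]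

/-- the transport identity for four points -/
def TRi (p : E → X) (v : E → Chart n X → (Fin (q + r) → Cm n) → H) (F : E → Cm q)
    (U : Γ → (H →ₗᵢ[ℂ] H)) (π : Γ →* (W ≃ₗᵢ[ℂ] W)) (c : Γ → Cm q)
    (N : Cm k →L[ℂ] Cm q) (P : Cm q →L[ℂ] Cm k) (T : E → E → W) (g : Γ)
    (z₁ z₁' z₂ z₂' : E) : Prop :=
  F z₂ = F z₁ → F z₁ ∈ RV n p F → F z₁' = F z₁ + cb c N P g → F z₂' = F z₁' →
    F z₁' ∈ RV n p F → Rel p v (U g) z₁ z₁' → Rel p v (U g) z₂ z₂' →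
    T z₁' z₂' = π g (T z₁ z₂)

/-- the transport relation between two points of a fibre -/
def TR (p : E → X) (v : E → Chart n X → (Fin (q + r) → Cm n) → H) (F : E → Cm q)
    (U : Γ → (H →ₗᵢ[ℂ] H)) (π : Γ →* (W ≃ₗᵢ[ℂ] W)) (c : Γ → Cm q)
    (N : Cm k →L[ℂ] Cm q) (P : Cm q →L[ℂ] Cm k) (T : E → E → W) (h : ℕ → Γ)
    (a₁ a₂ : E) : Prop :=
  ∃ B₁ ∈ 𝓝 a₁, ∃ B₂ ∈ 𝓝 a₂, ∀ᶠ i in atTop, ∀ z₁ ∈ B₁, ∀ z₁' ∈ B₁, ∀ z₂ ∈ B₂, ∀ z₂' ∈ B₂,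
    TRi p v F U π c N P T (h i) z₁ z₁' z₂ z₂'

end

section
variable {n q r k s m : ℕ} {X E Γ W H : Type} [TopologicalSpace X] [ChartedSpace (Cm n) X]
  [TopologicalSpace E] [Group Γ] [MulAction Γ E]
  [NormedAddCommGroup W] [InnerProductSpace ℂ W] [CompleteSpace W] [NormedAddCommGroup H]
  [InnerProductSpace ℂ H] [CompleteSpace H] {p : E → X} {F : E → Cm q}
  {w : Chart n X → Cm n → Matrix (Fin n) (Fin n) ℂ} {B : ℝ}
  {v : E → Chart n X → (Fin (q + r) → Cm n) → H}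
  {U : Γ → (H →ₗᵢ[ℂ] H)} {π : Γ →* (W ≃ₗᵢ[ℂ] W)} {Θ : E → Chart n X → (Cm n →L[ℂ] W)}
  {N : Cm k →L[ℂ] Cm q} {P : Cm q →L[ℂ] Cm k} {c : Γ → Cm q} {𝒢 : Set E} {T : E → E → W}
  {J : W →SL[starRingEnd ℂ] W} {h : ℕ → Γ}
  {z : E} {e : Chart n X} {b : Cm n → Cm (q + r)}
  {F0 : Cm (q + r) → W} {β : Cm (q + r) → Cm s} {γ : Cm s → H} {τ : Cm s → Cm q}

theorem lc_reg [IsManifold 𝓘(ℂ, Cm n) ω X] (hp : IsCoveringMap p)
    (hL : LC p F m v U π Θ N z e b F0 β γ τ) : Reg (n := n) p F z := by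
  have hd : HasFDerivAt (fun z => tq (b z)) (tqc q r ∘L fderiv ℂ b (e (p z))) (e (p z)) :=
    (tqc q r).hasFDerivAt.comp _ hL.ban.differentiableAt.hasFDerivAt
  refine H551.reg_of_rep hp hL.mem (f := fun z => tq (b z)) hL.t_eq hd.differentiableAt ?_
  rw [hd.fderiv]
  intro x
  obtain ⟨ξ, hξ⟩ := hL.bsurj (ins x 0)
  refine ⟨ξ, ?_⟩
  rw [ContinuousLinearMap.comp_apply, hξ, tqc_apply, tq_ins]

omit [MulAction Γ E] [InnerProductSpace ℂ H] [CompleteSpace H] [NormedAddCommGroup H]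
  [CompleteSpace W] [Group Γ] in
theorem two_self (hT : TwoPot p F Θ J T) {y : E} (h : F y ∈ RV n p F) : T y y = 0 := by
  have := hT.add y y y rfl rfl h
  simpa using this

omit [MulAction Γ E] [InnerProductSpace ℂ H] [CompleteSpace H] [NormedAddCommGroup H]
  [CompleteSpace W] [Group Γ] in
theorem two_symm (hT : TwoPot p F Θ J T) {y y' : E} (h' : F y = F y') (h : F y ∈ RV n p F) :
    T y' y = - T y y' := by
  have := hT.add y y' y h' h'.symm h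
  rw [two_self hT h, add_comm] at this
  exact eq_neg_of_add_eq_zero_left this

theorem TRi.symm {g : Γ} {z₁ z₁' z₂ z₂' : E} (hT : TwoPot p F Θ J T)
    (h : TRi p v F U π c N P T g z₁ z₁' z₂ z₂') :
    TRi p v F U π c N P T g z₂ z₂' z₁ z₁' := by
  intro e1 e2 e3 e4 e5 r1 r2
  rw [← e1] at e2
  rw [← e4] at e5
  rw [← e1, ← e4] at e3
  have := h e1.symm e2 e3 e4.symm e5 r2 r1
  rw [two_symm hT e4 e5, two_symm hT e1 e2, this, map_neg]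

theorem TR.symm {a₁ a₂ : E} (hT : TwoPot p F Θ J T) (h' : TR p v F U π c N P T h a₁ a₂) :
    TR p v F U π c N P T h a₂ a₁ := by
  obtain ⟨B₁, h1, B₂, h2, h3⟩ := h'
  exact ⟨B₂, h2, B₁, h1, h3.mono fun i hi z₁ hz₁ z₁' hz₁' z₂ hz₂ z₂' hz₂' =>
    (hi z₂ hz₂ z₂' hz₂' z₁ hz₁ z₁' hz₁').symm hT⟩

/-- the transport relation near a good point -/
theorem tr_loc [IsManifold 𝓘(ℂ, Cm n) ω X] (hp : IsCoveringMap p) (hF : HolB p w F B)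
    (hL : LeafE s p F m v U π Θ N 𝒢) (hP : ∀ x, P (N x) = x)
    (hJ : ∀ g x, J (π g x) = π g (J x)) (hT : TwoPot p F Θ J T)
    (hn : NearId p F m v U π Θ c N s 𝒢 h) {a : E} (ha : a ∈ 𝒢) :
    ∃ O : Set E, IsOpen O ∧ a ∈ O ∧ ∀ᶠ i in atTop, ∀ z₁ ∈ O, ∀ z₁' ∈ O, ∀ z₂ ∈ O, ∀ z₂' ∈ O,
      TRi p v F U π c N P T (h i) z₁ z₁' z₂ z₂' := by
  obtain ⟨e, b, F0, β, γ, τ, hC⟩ := hL.chart a ha
  obtain ⟨ρ, hρ, hNI⟩ := hn a ha e b F0 β γ τ hC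
  obtain ⟨ρ', hρ', hψ⟩ := exists_psi2 hL.dim hP hC.βan hC.trans hC.τan hC.leaf (c := c) hC.γan
    hC.imm hC.F0an hC.sheet hρ
  obtain ⟨δ, hδ, hψ⟩ := hψ 1 one_pos
  have hbt : Tendsto (fun y => b (e (p y))) (𝓝 a) (𝓝 (b (e (p a)))) :=
    hC.ban.continuousAt.tendsto.comp (map_ep hp hC.mem).le
  have hO : ∀ᶠ y in 𝓝 a, At e (p y) ∧ b (e (p y)) ∈ ball (b (e (p a))) ρ' ∧
      F y = tq (b (e (p y))) ∧ (NZ p v y ∧ OnL p v y (γ (β (b (e (p y)))))) ∧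
      AnalyticAt ℂ (fun z => F0 (b z)) (e (p y)) ∧
      ∀ᶠ y' in 𝓝 y, ∀ ξ ∈ VS p F y' e, Θ y' e ξ = fderiv ℂ (fun z => F0 (b z)) (e (p y')) ξ := by
    have h1 : AnalyticAt ℂ (fun z => F0 (b z)) (e (p a)) := AnalyticAt.fun_comp hC.F0an hC.ban
    have h2 : ∀ᶠ y in 𝓝 a, AnalyticAt ℂ (fun z => F0 (b z)) (e (p y)) :=
      (ev_iff hp hC.mem).2 h1.eventually_analyticAt
    exact (at_ev hp hC.mem).and ((hbt.eventually (ball_mem_nhds _ hρ')).and (hC.t_eq.and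
      (((lc_onL hp hL.form hC).mono fun y hy => ⟨hy.2.2.1, hy.2.2.2⟩).and
        (h2.and hC.pot.eventually_nhds))))
  obtain ⟨O, hOo, haO, hOs, hOc⟩ := H35.S4.box_E hp hF (lc_reg hp hC) _ hO
  refine ⟨O, hOo, haO, ?_⟩
  -- the potential on the box
  set G : E → W := fun y => F0 (b (e (p y))) with hG
  have hpot : ∀ t ∈ RV n p F, ∀ y y', y ∈ O → y' ∈ O → F y = t → F y' = t →
      T y y' = (G y' + J (G y')) - (G y + J (G y)) := by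
    intro t ht y y' hy hy' hyt hyt'
    refine (hOc t).induction₂' (P := fun y y' => T y y' =
      (G y' + J (G y')) - (G y + J (G y))) ?_ ?_ ⟨hy, hyt⟩ ⟨hy', hyt'⟩
    · rintro x ⟨hx, hxt⟩
      have hxt' : F x = t := hxt
      have hxR : F x ∈ RV n p F := by rw [hxt']; exact ht
      obtain ⟨a1, a2, a3, a4, a5, a6⟩ := hOs hx
      have hjp : JPot p F Θ x e (fun z => F0 (b z)) :=
        ⟨a5, a6.mono fun y' h1 ξ hξ => (h1 ξ hξ).symm⟩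
      obtain ⟨a₀, -, hc₀⟩ := hT.loc x x e e _ _ rfl hxR a1 a1 hjp hjp
      have h0 := hc₀.self_of_nhds rfl
      simp only [sub_self, zero_add] at h0
      rw [two_self hT hxR] at h0
      have hl : Tendsto (fun y'' : E => (x, y'')) (𝓝 x) (𝓝 (x, x)) := by
        rw [nhds_prod_eq]; exact tendsto_const_nhds.prodMk tendsto_id
      rw [eventually_nhdsWithin_iff]
      filter_upwards [hl.eventually hc₀] with y'' h1 h2
      have h2' : F y'' = t := h2.2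
      have h3 := h1 (hxt'.trans h2'.symm)
      have h4 : T x y'' = (G y'' + J (G y'')) - (G x + J (G x)) := by
        rw [h3]
        simp only [map_add, map_sub]
        have h5 : a₀ (F x) + J (a₀ (F x)) = 0 := h0.symm
        simp only [hG]
        calc _ = (F0 (b (e (p y''))) + J (F0 (b (e (p y''))))) -
              (F0 (b (e (p x))) + J (F0 (b (e (p x))))) + (a₀ (F x) + J (a₀ (F x))) := by abel
          _ = _ := by rw [h5, add_zero]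
      refine ⟨h4, ?_⟩
      rw [two_symm hT (hxt'.trans h2'.symm) hxR, h4]
      abel
    · rintro x y z ⟨-, hx⟩ ⟨-, hy⟩ ⟨-, hz⟩ h1 h2
      have hx' : F x = t := hx
      have hy' : F y = t := hy
      have hz' : F z = t := hz
      show T x z = _
      rw [← hT.add x y z (hx'.trans hy'.symm) (hy'.trans hz'.symm) (by rw [hx']; exact ht), h1, h2]
      abel
  filter_upwards [hNI δ hδ] with i hi
  obtain ⟨φ, h1, h2⟩ := hi
  obtain ⟨ψ, hψ1, hψ2, hψ3⟩ := hψ (h i) φ h1 h2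
  intro z₁ hz₁ z₁' hz₁' z₂ hz₂ z₂' hz₂' e1 e2 e3 e4 e5 r1 r2
  obtain ⟨-, a1, a2, ⟨a3, a3'⟩, -⟩ := hOs hz₁
  obtain ⟨-, b1, b2, ⟨b3, b3'⟩, -⟩ := hOs hz₁'
  obtain ⟨-, c1, c2, ⟨c3, c3'⟩, -⟩ := hOs hz₂
  obtain ⟨-, d1, d2, ⟨d3, d3'⟩, -⟩ := hOs hz₂'
  have k1 : b (e (p z₁')) = ψ (b (e (p z₁))) := by
    refine hψ3 _ a1 _ b1 ?_ ((rel_iff a3 a3' b3 b3').1 r1)
    rw [← a2, ← b2]; exact e3
  have k2 : b (e (p z₂')) = ψ (b (e (p z₂))) := by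
    refine hψ3 _ c1 _ d1 ?_ ((rel_iff c3 c3' d3 d3').1 r2)
    rw [← c2, ← d2, e4, e3, e1]; rfl
  have k3 := hψ2 _ c1 _ a1 (by rw [← c2, ← a2, e1])
  rw [hpot _ e5 _ _ hz₁' hz₂' rfl e4, hpot _ e2 _ _ hz₁ hz₂ rfl e1]
  simp only [hG]
  rw [k1, k2]
  have k4 : F0 (ψ (b (e (p z₂)))) + J (F0 (ψ (b (e (p z₂))))) -
      (F0 (ψ (b (e (p z₁)))) + J (F0 (ψ (b (e (p z₁)))))) =
      (F0 (ψ (b (e (p z₂)))) - F0 (ψ (b (e (p z₁))))) +
        J (F0 (ψ (b (e (p z₂)))) - F0 (ψ (b (e (p z₁))))) := by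
    rw [map_sub]; abel
  rw [k4, k3, hJ, ← map_add]
  congr 1
  rw [map_sub]; abel

/-- near a good point the sheet maps exist -/
theorem tr_ex [IsManifold 𝓘(ℂ, Cm n) ω X] (hp : IsCoveringMap p)
    (hL : LeafE s p F m v U π Θ N 𝒢) (hP : ∀ x, P (N x) = x)
    (hn : NearId p F m v U π Θ c N s 𝒢 h) {a : E} (ha : a ∈ 𝒢) {O : Set E} (hO : O ∈ 𝓝 a) :
    ∃ O' ∈ 𝓝 a, O' ⊆ O ∧ ∀ᶠ i in atTop, ∀ z ∈ O', ∃ z' ∈ O, F z' = F z + cb c N P (h i) ∧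
      Rel p v (U (h i)) z z' := by
  obtain ⟨e, b, F0, β, γ, τ, hC⟩ := hL.chart a ha
  obtain ⟨ρ, hρ, hNI⟩ := hn a ha e b F0 β γ τ hC
  obtain ⟨ρ', hρ', hψ⟩ := exists_psi2 hL.dim hP hC.βan hC.trans hC.τan hC.leaf (c := c) hC.γan
    hC.imm hC.F0an hC.sheet hρ
  have hbt : Tendsto (fun y => b (e (p y))) (𝓝 a) (𝓝 (b (e (p a)))) :=
    hC.ban.continuousAt.tendsto.comp (map_ep hp hC.mem).le
  have hopen : 𝓝 (b (e (p a))) ≤ map (fun y => b (e (p y))) (𝓝 a) := by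
    have h1 : map b (𝓝 (e (p a))) = 𝓝 (b (e (p a))) :=
      hC.ban.hasStrictFDerivAt.map_nhds_eq_of_surj (LinearMap.range_eq_top.2 hC.bsurj)
    rw [← h1, ← map_ep hp hC.mem, map_map]
    exact le_rfl
  have hgood : ∀ᶠ y in 𝓝 a, F y = tq (b (e (p y))) ∧ NZ p v y ∧
      OnL p v y (γ (β (b (e (p y))))) :=
    hC.t_eq.and ((lc_onL hp hL.form hC).mono fun y hy => ⟨hy.2.2.1, hy.2.2.2⟩)
  obtain ⟨ε₀, hε₀, hball⟩ := Metric.mem_nhds_iff.1 (hopen (image_mem_map (inter_mem hO hgood)))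
  obtain ⟨δ, hδ, hψ⟩ := hψ (ε₀ / 2) (half_pos hε₀)
  refine ⟨O ∩ {y | (F y = tq (b (e (p y))) ∧ NZ p v y ∧ OnL p v y (γ (β (b (e (p y)))))) ∧
    b (e (p y)) ∈ ball (b (e (p a))) (min ρ' (ε₀ / 2))}, inter_mem hO (hgood.and
      (hbt.eventually (ball_mem_nhds _ (by positivity)))), inter_subset_left, ?_⟩
  filter_upwards [hNI δ hδ] with i hi
  obtain ⟨φ, h1, h2⟩ := hi
  obtain ⟨ψ, hψ1, -, -⟩ := hψ (h i) φ h1 h2
  rintro z ⟨hzO, ⟨z1, z2, z3⟩, z4⟩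
  obtain ⟨k1, k2, k3⟩ := hψ1 _ (ball_subset_ball (min_le_left _ _) z4)
  have k4 : ψ (b (e (p z))) ∈ ball (b (e (p a))) ε₀ := by
    have h5 := ball_subset_ball (min_le_right _ _) z4
    rw [mem_ball] at h5 ⊢
    rw [← dist_eq_norm] at k1
    have := dist_triangle (ψ (b (e (p z)))) (b (e (p z))) (b (e (p a)))
    linarith
  obtain ⟨z', ⟨hz'O, h6, h7, h8⟩, hz'⟩ := hball k4
  have hz'' : b (e (p z')) = ψ (b (e (p z))) := hz'
  refine ⟨z', hz'O, ?_, (rel_iff z2 z3 h7 h8).2 ?_⟩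
  · rw [h6, hz'', k2, ← z1]; rfl
  · rw [hz'']; exact k3

theorem TR.trans [IsManifold 𝓘(ℂ, Cm n) ω X] (hp : IsCoveringMap p) (hF : HolB p w F B)
    (hL : LeafE s p F m v U π Θ N 𝒢) (hP : ∀ x, P (N x) = x)
    (hn : NearId p F m v U π Θ c N s 𝒢 h) {a₁ a₂ a₃ : E} (ha : a₂ ∈ 𝒢) (h12 : F a₁ = F a₂)
    (hT : TwoPot p F Θ J T)
    (k1 : TR p v F U π c N P T h a₁ a₂) (k2 : TR p v F U π c N P T h a₂ a₃) :
    TR p v F U π c N P T h a₁ a₃ := by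
  obtain ⟨B₁, h1, B₂, h2, h3⟩ := k1
  obtain ⟨B₂', h2', B₃, h4, h5⟩ := k2
  obtain ⟨O', hO', hO's, hex⟩ := tr_ex hp hL hP hn ha (inter_mem h2 h2')
  obtain ⟨e, b, F0, β, γ, τ, hC⟩ := hL.chart a₂ ha
  have hFc : Continuous F := hol_continuous hp hF
  have hopen : F '' O' ∈ 𝓝 (F a₂) := H35.S4.open_E hp hF (lc_reg hp hC) _ hO'
  rw [← h12] at hopen
  refine ⟨B₁ ∩ F ⁻¹' (F '' O'), inter_mem h1 (hFc.continuousAt.preimage_mem_nhds hopen), B₃, h4, ?_⟩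
  filter_upwards [h3, h5, hex] with i i1 i2 i3
  rintro z₁ ⟨hz₁, z₂, hz₂, e12⟩ z₁' ⟨hz₁', -⟩ z₃ hz₃ z₃' hz₃' e1 e2 e3 e4 e5 r1 r2
  obtain ⟨z₂', hz₂', e22, r22⟩ := i3 z₂ hz₂
  have e13 : F z₂' = F z₁' := by rw [e22, e12, e3]
  have m1 := i1 z₁ hz₁ z₁' hz₁' z₂ (hO's hz₂).1 z₂' hz₂'.1 e12 e2 e3 e13 e5 r1 r22
  have m2 := i2 z₂ (hO's hz₂).2 z₂' hz₂'.2 z₃ hz₃ z₃' hz₃' (e1.trans e12.symm)
    (by rw [e12]; exact e2) e22 (e4.trans e13.symm) (by rw [e13]; exact e5) r22 r2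
  rw [← hT.add z₁' z₂' z₃' e13.symm (e13.trans e4.symm) e5, m1, m2, ← map_add,
    hT.add z₁ z₂ z₃ e12.symm (e12.trans e1.symm) e2]

/-- **transport along a fibre** -/
theorem tr_conn [IsManifold 𝓘(ℂ, Cm n) ω X] (hp : IsCoveringMap p) (hF : HolB p w F B)
    (hL : LeafE s p F m v U π Θ N 𝒢) (hP : ∀ x, P (N x) = x)
    (hJ : ∀ g x, J (π g x) = π g (J x)) (hT : TwoPot p F Θ J T)
    (hn : NearId p F m v U π Θ c N s 𝒢 h) {t : Cm q} (hc : IsPreconnected (F ⁻¹' {t} ∩ 𝒢))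
    {a₁ a₂ : E} (h1 : a₁ ∈ F ⁻¹' {t} ∩ 𝒢) (h2 : a₂ ∈ F ⁻¹' {t} ∩ 𝒢) :
    TR p v F U π c N P T h a₁ a₂ := by
  refine hc.induction₂' (P := fun a₁ a₂ => TR p v F U π c N P T h a₁ a₂) ?_ ?_ h1 h2
  · rintro x ⟨-, hx⟩
    obtain ⟨O, hO, hxO, h3⟩ := tr_loc hp hF hL hP hJ hT hn hx
    refine Filter.Eventually.filter_mono nhdsWithin_le_nhds ?_
    filter_upwards [hO.mem_nhds hxO] with y hy
    exact ⟨⟨O, hO.mem_nhds hxO, O, hO.mem_nhds hy, h3⟩, ⟨O, hO.mem_nhds hy, O, hO.mem_nhds hxO, h3⟩⟩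
  · rintro x y z ⟨hx, -⟩ ⟨hy, hy'⟩ _ k1 k2
    exact TR.trans hp hF hL hP hn hy' (hx.trans hy.symm) hT k1 k2

end

end Vale.Agent.P284.H988.T
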