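import Vale.Agent.P284.H988.T.Aff
import Vale.Agent.P284.H988.T.CStkO
import Vale.Agent.P284.H212.LF

/-!
# P284 (helper988), T3⁺: a uniform neighbourhood of the limit point on which the translates stay on the
sheet
-/

open scoped Manifold ContDiff Topology InnerProductSpace ComplexConjugate
open Filter Set Metric

noncomputable section

set_option linter.unusedSectionVars false

namespace Vale.Agent.P284.H988.T

open Vale.Agent.P272.K Vale.Agent.P284.H894.G Vale.Agent.P284.H894.V Vale.Agent.P284.H894.W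
  Vale.Agent.P284.H213.Grp Vale.Agent.P284.H619 Vale.Agent.P284.H10 Vale.Agent.P284.H573
  Vale.Agent.P284.H625 Vale.Agent.P284.H378 Vale.Agent.P284.H212 Vale.Agent.P284.H395
  Vale.Agent.P284.H478.G Vale.Agent.P284.H494
open Vale.Agent.P284.H650.T (TwoPot JPot TEqui AffTriv JDat Std IsJ)

section
variable {n q R k s m : ℕ} {X : Type} [TopologicalSpace X] [ChartedSpace (Cm n) X]
  [IsManifold 𝓘(ℂ, Cm n) ω X]
  {E : Type} [TopologicalSpace E] {Γ : Type}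
  [Group Γ] [MulAction Γ E] {p : E → X} {F : E → Cm q}
  {w : Chart n X → Cm n → Matrix (Fin n) (Fin n) ℂ} {B : ℝ}
  {H : Type} [NormedAddCommGroup H] [InnerProductSpace ℂ H] [CompleteSpace H]
  {v : E → Chart n X → (Fin R → Cm n) → H} {c : Γ → Cm q} {U : Γ → (H →ₗᵢ[ℂ] H)}

/-- from the relation on the ball to the sheet relation -/
theorem sh_of_rel (hp : IsGalois Γ p)
    (hU : ∀ g y (e : Chart n X), At e (p y) → ∀ ξ, v (g • y) e ξ = U g (v y e ξ))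
    (hc : ∀ g y, F (g • y) = F y + c g) {D : LeafDat q s k H} {N : Cm k →L[ℂ] Cm q}
    (hDN : ∀ x, D.N x = N) {T : Cm q →L[ℂ] Cm q}
    (hT : ∀ x, T x = 0 ↔ x ∈ LinearMap.range (N : Cm k →ₗ[ℂ] Cm q)) {b' : Cm s}
    {C : PC D.γ b'} {e : Chart n X} {ε : OpenPartialHomeomorph E (Cm n)} (hε : IsCh p e ε)
    {B : Set (Cm n)} (hBo : IsOpen B) (hB : B ⊆ ε.target) {w' : Cm n → H}
    (hw : ∀ z ∈ B, AnalyticAt ℂ w' z ∧ OnL p v (ε.symm z) (w' z)) {g : Γ}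
    (hR : ∀ z ∈ B, H212.Rel C D.t T (U g⁻¹) (w' z) (F (ε.symm z) + c g⁻¹)) {z : Cm n}
    (hz : z ∈ B) : Sh p v F D (g⁻¹ • ε.symm z) (C.g (C.P (U g⁻¹ (w' z)))) := by
  have hpg : ∀ (g : Γ) (y : E), p (g • y) = p y := fun g y => ((hp.orb y (g • y)).2 ⟨g, rfl⟩).symm
  have hzt := hB hz
  have hy : ε.symm z ∈ ε.source := ε.map_target hzt
  have hez : e (p (g⁻¹ • ε.symm z)) = z := by
    rw [hpg, ← hε.eq _ hy, ε.right_inv hzt]
  refine ⟨e, fun x => C.g (C.P (U g⁻¹ (w' x))), ?_, ?_, ?_, ?_⟩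
  · rw [hpg]
    exact hε.at hy
  · rw [hez]
    refine AnalyticAt.comp (g := fun x => C.g (C.P x)) (f := fun z => U g⁻¹ (w' z))
      (C.gP_an (hR z hz).1) ?_
    exact ((U g⁻¹).toContinuousLinearMap.analyticAt _).comp (hw z hz).1
  · rw [hez]
  · have hcont : Tendsto (fun y' : E => g • y') (𝓝 (g⁻¹ • ε.symm z)) (𝓝 (ε.symm z)) := by
      have := (hp.cont g).tendsto (g⁻¹ • ε.symm z)
      rwa [smul_inv_smul] at this
    have hN : ∀ᶠ y' in 𝓝 (ε.symm z), y' ∈ ε.source ∧ ε y' ∈ B := by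
      have h9 : ∀ᶠ y' in 𝓝 (ε.symm z), ε y' ∈ B := by
        refine (ε.continuousAt hy).eventually ?_
        rw [ε.right_inv hzt]
        exact hBo.mem_nhds hz
      filter_upwards [ε.open_source.mem_nhds hy, h9] with y' h1 h2
      exact ⟨h1, h2⟩
    filter_upwards [hcont.eventually hN] with y' hy'
    obtain ⟨h1, h2⟩ := hy'
    have h3 : y' = g⁻¹ • (g • y') := (inv_smul_smul g y').symm
    have h4 : e (p y') = ε (g • y') := by rw [hε.eq _ h1, hpg]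
    have h5 : ε.symm (ε (g • y')) = g • y' := ε.left_inv h1
    obtain ⟨-, ⟨a', -, h6⟩, h7⟩ := hR _ h2
    rw [h5] at h7
    rw [h4]
    constructor
    · intro ξ
      obtain ⟨a, ha⟩ := (hw _ h2).2.2 e (by rw [h5]; exact hε.at h1) ξ
      rw [h5] at ha
      refine ⟨a * a', ?_⟩
      have h8 : v y' e ξ = U g⁻¹ (v (g • y') e ξ) := by
        rw [← hU _ _ e (hε.at h1), inv_smul_smul]
      rw [h8, ha, map_smul, mul_smul, ← h6]
    · have h8 : F y' = F (g • y') + c g⁻¹ := by rw [← hc, inv_smul_smul]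
      rw [h8]
      unfold LeafDat.Q
      rw [hDN, ← hT]
      exact h7

/-- **a uniform neighbourhood** -/
theorem unif_nbhd (hp : IsGalois Γ p) (hH : HForm n R m p H v)
    (hU : ∀ g y (e : Chart n X), At e (p y) → ∀ ξ, v (g • y) e ξ = U g (v y e ξ))
    (hF : HolB p w F B) (hc : ∀ g y, F (g • y) = F y + c g) {D : LeafDat q s k H}
    {N : Cm k →L[ℂ] Cm q} (hDN : ∀ x, D.N x = N) {𝒢 : Set E}
    (h𝒢d : Dense 𝒢) (hL : ∀ y ∈ 𝒢, ∃ x, OnL p v y x) {r₀ : ℝ} (hr₀ : 0 < r₀)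
    (hγ₀ : ∀ b ∈ ball D.b₀ (3 * r₀), AnalyticAt ℂ D.γ b ∧ AnalyticAt ℂ D.t b ∧ ImmAt D.γ b)
    (g : ℕ → Γ) {y : ℕ → E} {y₀ : E} (hy : Tendsto y atTop (𝓝 y₀)) (hNZ : NZ p v y₀)
    {b : ℕ → Cm s} (hb : ∀ i, b i ∈ ball D.b₀ r₀)
    (hsh : ∀ i, Sh p v F D ((g i)⁻¹ • y i) (b i)) :
    ∃ σ : ℕ → ℕ, StrictMono σ ∧ ∃ V : Set E, IsOpen V ∧ IsPreconnected V ∧ y₀ ∈ V ∧
      (∀ y ∈ V, NZ p v y) ∧
      ∀ i, ∀ y ∈ V, ∃ b ∈ ball D.b₀ (3 * r₀), Sh p v F D ((g (σ i))⁻¹ • y) b := by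
  obtain ⟨T, hT⟩ := exists_T N
  obtain ⟨σ, hσ, b', C, w', e, ε, ρ, hb', hCR, hε, hyε, hρ, hball, hw, hR⟩ :=
    lf_ball hp hH hU hF hc (T := T) h𝒢d hL hr₀ hγ₀ g hy hNZ hb
      (fun i => shT_of hp.cov hH hDN hT (hsh i))
  obtain ⟨e₁, he₁, ξ₁, hξ₁⟩ := hNZ
  have hO : ∀ᶠ y in 𝓝 y₀, NZ p v y := by
    filter_upwards [(v_cont hp.cov hH he₁ ξ₁).eventually_ne hξ₁, at_ev hp.cov he₁] with y h1 h2
    exact ⟨e₁, h2, ξ₁, h1⟩
  have hO' : ∀ᶠ z in 𝓝 (ε y₀), NZ p v (ε.symm z) :=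
    (ε.continuousAt_symm (ε.map_source hyε)).eventually (by rw [ε.left_inv hyε]; exact hO)
  obtain ⟨ρ', hρ', hO''⟩ := Metric.eventually_nhds_iff_ball.1 hO'
  set ρ₁ := min ρ ρ' with hρ₁
  have hρ₁pos : 0 < ρ₁ := lt_min hρ hρ'
  have s1 : ball (ε y₀) ρ₁ ⊆ ball (ε y₀) ρ := ball_subset_ball (min_le_left _ _)
  have s2 : ball (ε y₀) ρ₁ ⊆ ball (ε y₀) ρ' := ball_subset_ball (min_le_right _ _)
  refine ⟨σ, hσ, ε.symm '' ball (ε y₀) ρ₁, ?_, ?_, ?_, ?_, ?_⟩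
  · exact ε.symm.isOpen_image_of_subset_source isOpen_ball (s1.trans hball)
  · exact (convex_ball _ _).isPreconnected.image _ (ε.continuousOn_symm.mono (s1.trans hball))
  · exact ⟨ε y₀, mem_ball_self hρ₁pos, ε.left_inv hyε⟩
  · rintro _ ⟨z, hz, rfl⟩
    exact hO'' z (s2 hz)
  · rintro i _ ⟨z, hz, rfl⟩
    refine ⟨_, ?_, sh_of_rel hp hU hc hDN hT hε isOpen_ball hball hw (hR i) (s1 hz)⟩
    have h1 := C.g_mem _ (hR i z (s1 hz)).1.2
    rw [mem_ball] at h1 ⊢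
    rw [mem_closedBall] at hb'
    calc dist _ D.b₀ ≤ dist _ b' + dist b' D.b₀ := dist_triangle _ _ _
      _ < 3 * r₀ := by linarith

/-- a connected set of points, whose translates are on the sheet, stays in a clopen part -/
theorem clp_sub (hp : IsGalois Γ p) {D : LeafDat q s k H} {O : Set E} {r₀ : ℝ}
    (hO : ClPart p v F D r₀ O) (hnz : ∀ (g : Γ) y, NZ p v y → NZ p v (g • y)) {V : Set E}
    (hVc : IsPreconnected V) (hVnz : ∀ y ∈ V, NZ p v y) {g : Γ}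
    (hVs : ∀ y ∈ V, ∃ b ∈ ball D.b₀ r₀, Sh p v F D (g • y) b) {y₁ : E} (hy₁ : y₁ ∈ V)
    (h1 : g • y₁ ∈ O) : ∀ y ∈ V, g • y ∈ O := by
  intro y hy
  refine (hVc.induction₂' (P := fun y y' => g • y ∈ O ↔ g • y' ∈ O) ?_ ?_ hy₁ hy).1 h1
  · intro x hx
    have h2 := hO.loc (g • x) (hnz g x (hVnz x hx)) (hVs x hx)
    refine Filter.Eventually.filter_mono nhdsWithin_le_nhds ?_
    filter_upwards [(hp.cont g).continuousAt.eventually h2] with x' h3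
    exact ⟨h3.symm, h3⟩
  · intro x y z _ _ _ h2 h3
    exact h2.trans h3

end

end Vale.Agent.P284.H988.T
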